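import Vale.Agent.P251.St.ToLC
import Vale.Agent.P251.I.Spaces

/-!
# P251, statement layer: a `Susp T` gives a `SpaceFunctor T.C`

This file does not enter the final statement.
-/

open CategoryTheory MonoidalCategory OnePoint Topology Limits Pretriangulated

namespace Vale.Agent.P251.St

open G G.LC I

namespace Susp

variable {T : SHCat} (S : Susp T)

/-- functoriality for morphisms of `LC` -/
abbrev mapL {X Y : LC} (f : X ⟶ Y) : S.obj (ofLC X) ⟶ S.obj (ofLC Y) :=
  S.map (ofHom (X := ofLC X) (Y := ofLC Y) f)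

/-- the functor on finite cell spaces -/
def fun' : FCat ⥤ T.C where
  obj X := S.obj (ofLC X.obj)
  map f := S.mapL f.hom
  map_id X := S.map_id _ (fc_ofLC X.property) rfl
  map_comp {X Y Z} _ _ :=
    S.map_comp _ _ _ (fc_ofLC X.property) (fc_ofLC Y.property) (fc_ofLC Z.property) rfl

/-- the tensorator -/
noncomputable def mulIso (X Y : FCat) : S.fun'.obj X ⊗ S.fun'.obj Y ≅ S.fun'.obj (X ⊗ Y) :=
  @asIso T.C _ (S.obj (ofLC X.obj) ⊗ S.obj (ofLC Y.obj)) (S.obj (ofLC (X.obj ⊗ Y.obj)))
    (S.mul (ofLC X.obj) (ofLC Y.obj)) (S.mul_isIso (fc_ofLC X.property) (fc_ofLC Y.property))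

theorem mulIso_hom (X Y : FCat) : (S.mulIso X Y).hom = S.mul (ofLC X.obj) (ofLC Y.obj) := rfl

/-- the unit isomorphism -/
noncomputable def unitIso : 𝟙_ T.C ≅ S.fun'.obj (𝟙_ FCat) :=
  @asIso T.C _ (𝟙_ T.C) (S.obj Pn) S.unit S.unit_isIso

theorem map_braiding (X Y : FCat) :
    (S.mulIso X Y).hom ≫ S.fun'.map (β_ X Y).hom =
      (β_ (S.fun'.obj X) (S.fun'.obj Y)).hom ≫ (S.mulIso Y X).hom :=
  S.mul_comm (X := ofLC X.obj) (Y := ofLC Y.obj) _ (fc_ofLC X.property) (fc_ofLC Y.property)
    (fun x y => app_braiding_smash X.obj Y.obj x y)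

theorem map_tensor {X X' Y Y' : FCat} (f : X ⟶ X') (g : Y ⟶ Y') :
    (S.mulIso X Y).hom ≫ S.fun'.map (f ⊗ₘ g) =
      (S.fun'.map f ⊗ₘ S.fun'.map g) ≫ (S.mulIso X' Y').hom :=
  S.mul_natural (X := ofLC X.obj) (Y := ofLC Y.obj) (X' := ofLC X'.obj) (Y' := ofLC Y'.obj) _ _ _
    (fc_ofLC X.property) (fc_ofLC X'.property) (fc_ofLC Y.property) (fc_ofLC Y'.property)
    (fun x y => app_tensorHom_smash f.hom g.hom x y)

theorem map_leftUnitor (X : FCat) :
    S.unitIso.hom ▷ S.fun'.obj X ≫ (S.mulIso (𝟙_ FCat) X).hom ≫ S.fun'.map (λ_ X).hom =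
      (λ_ (S.fun'.obj X)).hom := by
  have h := S.mul_unit (X := ofLC X.obj) (ofHom (λ_ X.obj).hom) (fc_ofLC X.property)
    (fun x => app_leftUnitor_smash X.obj x)
  rw [← MonoidalCategory.tensorHom_id]
  exact h

/-- the monoidal structure -/
noncomputable def core : S.fun'.CoreMonoidal where
  εIso := S.unitIso
  μIso X Y := S.mulIso X Y
  μIso_hom_natural_left {X Y} f X' := by
    have h := S.map_tensor f (𝟙 X')
    rw [S.fun'.map_id, MonoidalCategory.tensorHom_id, MonoidalCategory.tensorHom_id] at h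
    exact h.symm
  μIso_hom_natural_right {X Y} X' f := by
    have h := S.map_tensor (𝟙 X') f
    rw [S.fun'.map_id, MonoidalCategory.id_tensorHom, MonoidalCategory.id_tensorHom] at h
    exact h.symm
  associativity X Y Z := by
    have h := S.mul_assoc (X := ofLC X.obj) (Y := ofLC Y.obj) (Z := ofLC Z.obj)
      (ofHom (α_ X.obj Y.obj Z.obj).hom) (fc_ofLC X.property) (fc_ofLC Y.property)
      (fc_ofLC Z.property) (fun x y z => app_associator_smash X.obj Y.obj Z.obj x y z)
    have h1 : S.mul (ofLC X.obj) (ofLC Y.obj) ▷ S.obj (ofLC Z.obj) ≫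
        S.mul (ofLC (X ⊗ Y).obj) (ofLC Z.obj) ≫ S.mapL (α_ X.obj Y.obj Z.obj).hom =
      (α_ (S.obj (ofLC X.obj)) (S.obj (ofLC Y.obj)) (S.obj (ofLC Z.obj))).hom ≫
        S.obj (ofLC X.obj) ◁ S.mul (ofLC Y.obj) (ofLC Z.obj) ≫
          S.mul (ofLC X.obj) (ofLC (Y ⊗ Z).obj) := by
      rw [← MonoidalCategory.tensorHom_id, ← MonoidalCategory.id_tensorHom]
      exact h
    exact h1
  left_unitality X := (S.map_leftUnitor X).symm
  right_unitality X := by
    have h1 : (ρ_ X).hom = (β_ X (𝟙_ FCat)).hom ≫ (λ_ X).hom := (braiding_leftUnitor X).symm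
    rw [h1, S.fun'.map_comp, ← Category.assoc (S.mulIso X (𝟙_ FCat)).hom, S.map_braiding,
      Category.assoc, ← Category.assoc (S.fun'.obj X ◁ S.unitIso.hom),
      BraidedCategory.braiding_naturality_right, Category.assoc, S.map_leftUnitor]
    exact (braiding_leftUnitor _).symm

/-- the braided functor -/
noncomputable abbrev braided' : S.fun'.Braided :=
  { S.core.toMonoidal with
    braided := fun X Y => by
      exact S.map_braiding X Y }

end Susp

/-! ### mapping cones -/

theorem app_inclH0 (X : LC) (x : OnePoint X) :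
    app (inclH X) x = LC.smash x ((0 : NNReal) : OnePoint NNReal) := by
  induction x using OnePoint.rec with
  | infty => exact app_infty _
  | coe x => rfl

theorem app_openPart_of_pos (t : NNReal) (ht : 0 < t) :
    app openPart (t : OnePoint NNReal) = ((Real.log t : ℝ) : OnePoint ℝ) := by
  have h : expH (Real.log t) = t := NNReal.eq (Real.exp_log ht)
  have h1 := app_ofOpen_coe (X := HH) (Y := RR) expH isOpenEmbedding_expH (Real.log t)
  rw [h] at h1
  exact h1

theorem app_openPart_zero0 : app openPart ((0 : NNReal) : OnePoint NNReal) = ∞ := by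
  apply app_ofOpen_of_notMem (X := HH) (Y := RR) expH isOpenEmbedding_expH
  rintro ⟨t, ht⟩
  exact (Real.exp_pos t).ne' (congrArg NNReal.toReal ht)

/-- the two notions of mapping cones agree -/
theorem isCone_iff {X Y C : Space} (f : Map X Y) (j : Map Y C) (k : Map (X.prod Hh) C)
    (d : Map C (X.prod Rr)) :
    IsCone f j k d ↔ IsPushout (inclH (toLC X)) (toHom f) (toHom (X := X.prod Hh) k) (toHom j) ∧
      toHom j ≫ toHom (Y := X.prod Rr) d = 0 ∧
      toHom (X := X.prod Hh) k ≫ toHom (Y := X.prod Rr) d = toLC X ◁ openPart := by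
  constructor
  · intro h
    have w : inclH (toLC X) ≫ toHom (X := X.prod Hh) k = toHom f ≫ toHom j := by
      apply app_ext
      intro x
      rw [app_comp, app_inclH0]
      exact h.glue x
    have key : ∀ (Z : LC) (u : toLC Y ⟶ Z) (v : toLC X ⊗ HH ⟶ Z),
        inclH (toLC X) ≫ v = toHom f ≫ u →
        ∃! m : toLC C ⟶ Z, toHom j ≫ m = u ∧ toHom (X := X.prod Hh) k ≫ m = v := by
      intro Z u v huv
      obtain ⟨m, ⟨hm1, hm2⟩, hm⟩ := h.pushout (ofLC Z) (ofHom u)
        (ofHom (X := X.prod Hh) (Y := ofLC Z) v) (fun x => by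
          have := congrArg (fun k => app k x) huv
          simp only [app_comp, app_inclH0] at this
          exact this)
      refine ⟨toHom m, ⟨?_, ?_⟩, ?_⟩
      · apply app_ext
        intro x
        exact congrFun hm1 x
      · apply app_ext
        intro x
        exact congrFun hm2 x
      · rintro m' ⟨h1, h2⟩
        have := hm (ofHom m') ⟨by
            funext x
            exact congrArg (fun k => app k x) h1, by
            funext x
            exact congrArg (fun k => app k x) h2⟩
        rw [← this]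
        rfl
    refine ⟨⟨⟨w⟩, ⟨PushoutCocone.IsColimit.mk _
      (fun s => (key s.pt s.inr s.inl s.condition).choose)
      (fun s => (key s.pt s.inr s.inl s.condition).choose_spec.1.2)
      (fun s => (key s.pt s.inr s.inl s.condition).choose_spec.1.1)
      (fun s m hm1 hm2 => (key s.pt s.inr s.inl s.condition).choose_spec.2 m ⟨hm2, hm1⟩)⟩⟩,
      ?_, ?_⟩
    · apply app_ext
      intro y
      exact h.collapse y
    · apply tensor_ext (X := toLC X) (Y := HH) (Z := toLC X ⊗ RR)
      intro x t
      rw [app_comp, app_whiskerLeft_smash]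
      by_cases ht : t = 0
      · subst ht
        rw [app_openPart_zero0, smash_infty_right]
        change d.toFun (k.toFun (LC.smash (x : OnePoint X.carrier) _)) = ∞
        rw [show k.toFun (LC.smash (x : OnePoint X.carrier) ((0 : NNReal) : OnePoint NNReal)) =
          j.toFun (f.toFun x) from h.glue x]
        exact h.collapse _
      · rw [app_openPart_of_pos t (pos_iff_ne_zero.mpr ht)]
        exact h.interior x t (pos_iff_ne_zero.mpr ht)
  · rintro ⟨hsq, hj, hk⟩
    refine ⟨fun x => ?_, fun Z u v huv => ?_, fun y => ?_, fun x t ht => ?_⟩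
    · have := congrArg (fun k => app k x) hsq.w
      simp only [app_comp, app_inclH0] at this
      exact this
    · have w : inclH (toLC X) ≫ toHom (X := X.prod Hh) v = toHom f ≫ toHom u := by
        apply app_ext
        intro x
        rw [app_comp, app_inclH0]
        exact huv x
      refine ⟨ofHom (hsq.desc _ _ w), ⟨?_, ?_⟩, ?_⟩
      · funext y
        exact congrArg (fun k => app k y) (hsq.inr_desc _ _ w)
      · funext y
        exact congrArg (fun k => app k y) (hsq.inl_desc _ _ w)
      · rintro m ⟨h1, h2⟩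
        have : toHom m = hsq.desc _ _ w := by
          apply hsq.hom_ext
          · rw [hsq.inl_desc]
            apply app_ext
            intro y
            exact congrFun h2 y
          · rw [hsq.inr_desc]
            apply app_ext
            intro y
            exact congrFun h1 y
        rw [← this]
        rfl
    · exact congrArg (fun k => app k y) hj
    · have h1 := congrArg (fun k => app k (LC.smash x ((t : NNReal) : OnePoint NNReal))) hk
      change app (toHom (Y := X.prod Rr) d) (app (toHom (X := X.prod Hh) k) _) =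
        app (toLC X ◁ openPart) _ at h1
      rw [app_whiskerLeft_smash, app_openPart_of_pos t ht] at h1
      exact h1

namespace Susp

variable {T : SHCat} (S : Susp T)

/-- the line goes to the suspension of the unit -/
noncomputable def lineIso : S.fun'.obj RRF ≅ (𝟙_ T.C)⟦(1 : ℤ)⟧ :=
  @asIso T.C _ (S.obj Rr) _ S.line S.line_isIso

/-- The suspension spectrum functor in the form used by the library. -/
noncomputable def toSpaceFunctor : SpaceFunctor T.C where
  S := S.fun'
  braided := S.braided'
  isZero {X} h := by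
    rw [IsZero.iff_id_eq_zero]
    exact S.isZero (fc_ofLC X.property) h
  map_eq {X Y} f g h := S.map_homotopic _ _ (fc_ofLC X.property) (fc_ofLC Y.property)
    ((homotopic_iff' (X := ofLC X.obj) (Y := ofLC Y.obj) (ofHom f.hom) (ofHom g.hom)).mpr h)
  line := S.lineIso
  cone {X Y C} f j k hsq d hj hk := by
    have h := S.cone (X := ofLC X.obj) (Y := ofLC Y.obj) (C := ofLC C.obj) (ofHom f.hom)
      (ofHom j.hom) (ofHom (X := (ofLC X.obj).prod Hh) k)
      (ofHom (Y := (ofLC X.obj).prod Rr) d.hom)
      (S.fun'.map d ≫ (S.mulIso X RRF).inv) (fc_ofLC X.property) (fc_ofLC Y.property)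
      (fc_ofLC C.property) ((isCone_iff _ _ _ _).mpr ⟨hsq, hj, hk⟩) (by
        have : (S.fun'.map d ≫ (S.mulIso X RRF).inv) ≫ (S.mulIso X RRF).hom = S.fun'.map d := by
          rw [Category.assoc, Iso.inv_hom_id, Category.comp_id]
        exact this)
    have e1 : (S.fun'.map d ≫ (S.mulIso X RRF).inv) ≫
        (𝟙 (S.fun'.obj X) ⊗ₘ S.lineIso.hom) ≫ (T.tensor.e (S.fun'.obj X)).hom =
        S.fun'.map d ≫ (S.mulIso X RRF).inv ≫ (S.fun'.obj X ◁ S.lineIso.hom) ≫
          (T.tensor.e (S.fun'.obj X)).hom := by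
      rw [Category.assoc, MonoidalCategory.id_tensorHom]
    change Triangle.mk (S.fun'.map f) (S.fun'.map j) (S.fun'.map d ≫ (S.mulIso X RRF).inv ≫
          (S.fun'.obj X ◁ S.lineIso.hom) ≫ (T.tensor.e (S.fun'.obj X)).hom) ∈ distTriang T.C
    rw [← e1]
    exact h
  full {X Y} g := by
    obtain ⟨n, h, hh⟩ := S.full (X := ofLC X.obj) (Y := ofLC Y.obj) g (fc_ofLC X.property)
      (fc_ofLC Y.property)
    let hF : X ⊗ SphF n ⟶ Y ⊗ SphF n := ObjectProperty.homMk (toHom (X := (ofLC X.obj).prod (Rn n))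
      (Y := (ofLC Y.obj).prod (Rn n)) h)
    refine ⟨n, hF, ?_⟩
    have h1 : (S.mulIso X (SphF n)).hom ≫ S.fun'.map hF = (g ▷ S.fun'.obj (SphF n)) ≫
        (S.mulIso Y (SphF n)).hom := by
      rw [← MonoidalCategory.tensorHom_id]
      exact hh
    exact (Iso.eq_inv_comp (S.mulIso X (SphF n))).mpr h1
  faithful {X Y} f g h := by
    obtain ⟨n, f', g', hf, hg, H⟩ := S.faithful (X := ofLC X.obj) (Y := ofLC Y.obj)
      (ofHom f.hom) (ofHom g.hom) (fc_ofLC X.property) (fc_ofLC Y.property) h
    refine ⟨n, ?_⟩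
    have e1 : f.hom ▷ LC.Sph n = toHom (X := (ofLC X.obj).prod (Rn n))
        (Y := (ofLC Y.obj).prod (Rn n)) f' := by
      apply tensor_ext (X := X.obj) (Y := LC.Sph n) (Z := Y.obj ⊗ LC.Sph n)
      intro x y
      rw [app_whiskerRight_smash]
      exact (hf x y).symm
    have e2 : g.hom ▷ LC.Sph n = toHom (X := (ofLC X.obj).prod (Rn n))
        (Y := (ofLC Y.obj).prod (Rn n)) g' := by
      apply tensor_ext (X := X.obj) (Y := LC.Sph n) (Z := Y.obj ⊗ LC.Sph n)
      intro x y
      rw [app_whiskerRight_smash]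
      exact (hg x y).symm
    rw [e1, e2]
    exact (homotopic_iff' f' g').mp H

end Susp

end Vale.Agent.P251.St
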