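import Vale.Agent.P251.St.ToFunctor

/-!
# P251, statement layer: a `SpaceFunctor T.C` gives a `Susp T`

This file does not enter the final statement.
-/

open CategoryTheory MonoidalCategory OnePoint Topology Limits Pretriangulated ZeroObject

namespace Vale.Agent.P251.St

open G G.LC I

theorem fc_prod {X Y : Space} (hX : FC X) (hY : FC Y) : FC (X.prod Y) :=
  fc_ofLC (X := toLC X ⊗ toLC Y) (FCP.prop_tensor (fc_toLC hX) (fc_toLC hY))

theorem fcPn : FC Pn := fc_ofLC (X := LC.of Unit) LC.FC.unit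

theorem fcRr : FC Rr := fc_ofLC fcRR

namespace OfFunctor

variable {T : SHCat} (F : SpaceFunctor T.C)

/-- a finite cell space as an object of `FCat` -/
abbrev ob {X : Space} (h : FC X) : FCat := ⟨toLC X, fc_toLC h⟩

/-- a map as a morphism of `FCat` -/
abbrev hm {X Y : Space} (hX : FC X) (hY : FC Y) (f : Map X Y) : ob hX ⟶ ob hY :=
  ObjectProperty.homMk (toHom f)

open scoped Classical in
/-- the objects -/
noncomputable def obj (X : Space) : T.C := if h : FC X then F.S.obj (ob h) else 0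

/-- the objects for finite cell spaces -/
noncomputable def oi {X : Space} (h : FC X) : obj F X ≅ F.S.obj (ob h) := eqToIso (dif_pos h)

open scoped Classical in
/-- functoriality -/
noncomputable def map {X Y : Space} (f : Map X Y) : obj F X ⟶ obj F Y :=
  if h : FC X ∧ FC Y then (oi F h.1).hom ≫ F.S.map (hm h.1 h.2 f) ≫ (oi F h.2).inv else 0

theorem map_eq {X Y : Space} (hX : FC X) (hY : FC Y) (f : Map X Y) :
    map F f = (oi F hX).hom ≫ F.S.map (hm hX hY f) ≫ (oi F hY).inv := dif_pos ⟨hX, hY⟩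

open scoped Classical in
/-- multiplication -/
noncomputable def mul (X Y : Space) : obj F X ⊗ obj F Y ⟶ obj F (X.prod Y) :=
  if h : FC X ∧ FC Y then ((oi F h.1).hom ⊗ₘ (oi F h.2).hom) ≫
    (Functor.Monoidal.μIso F.S (ob h.1) (ob h.2)).hom ≫ (oi F (fc_prod h.1 h.2)).inv else 0

theorem mul_eq {X Y : Space} (hX : FC X) (hY : FC Y) :
    mul F X Y = ((oi F hX).hom ⊗ₘ (oi F hY).hom) ≫
    (Functor.Monoidal.μIso F.S (ob hX) (ob hY)).hom ≫ (oi F (fc_prod hX hY)).inv :=
  dif_pos ⟨hX, hY⟩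

/-- the data -/
noncomputable def data : SuspData T where
  obj := obj F
  map f := map F f
  mul X Y := mul F X Y
  unit := (Functor.Monoidal.εIso F.S).hom ≫ (oi F fcPn).inv
  line := (oi F fcRr).hom ≫ F.line.hom

theorem hm_id {X : Space} (hX : FC X) (f : Map X X) (h : f.toFun = id) :
    hm hX hX f = 𝟙 (ob hX) := by
  apply ObjectProperty.hom_ext
  apply app_ext
  intro x
  exact congrFun h x

theorem hm_comp {X Y Z : Space} (hX : FC X) (hY : FC Y) (hZ : FC Z) (f : Map X Y) (g : Map Y Z)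
    (h : Map X Z) (e : h.toFun = g.toFun ∘ f.toFun) : hm hX hZ h = hm hX hY f ≫ hm hY hZ g := by
  apply ObjectProperty.hom_ext
  apply app_ext
  intro x
  exact congrFun e x

theorem hm_tensor {X X' Y Y' : Space} (hX : FC X) (hX' : FC X') (hY : FC Y) (hY' : FC Y')
    (f : Map X X') (g : Map Y Y') (h : Map (X.prod Y) (X'.prod Y'))
    (e : ∀ x y, h.toFun (St.smash x y) = St.smash (f.toFun x) (g.toFun y)) :
    hm (fc_prod hX hY) (fc_prod hX' hY') h = (hm hX hX' f ⊗ₘ hm hY hY' g) := by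
  apply ObjectProperty.hom_ext
  apply tensor_ext (X := toLC X) (Y := toLC Y) (Z := toLC X' ⊗ toLC Y')
  intro x y
  refine (e x y).trans ?_
  exact (app_tensorHom_smash (toHom f) (toHom g) x y).symm

theorem map_id {X : Space} (f : Map X X) (hX : FC X) (h : f.toFun = id) :
    map F f = 𝟙 (obj F X) := by
  rw [map_eq F hX hX, hm_id hX f h, F.S.map_id, Category.id_comp, Iso.hom_inv_id]

theorem map_comp {X Y Z : Space} (f : Map X Y) (g : Map Y Z) (h : Map X Z) (hX : FC X)
    (hY : FC Y) (hZ : FC Z) (e : h.toFun = g.toFun ∘ f.toFun) :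
    map F h = map F f ≫ map F g := by
  rw [map_eq F hX hZ, map_eq F hX hY, map_eq F hY hZ, hm_comp hX hY hZ f g h e, F.S.map_comp]
  simp only [Category.assoc, Iso.inv_hom_id_assoc]

theorem isIso_mul {X Y : Space} (hX : FC X) (hY : FC Y) : IsIso (mul F X Y) := by
  rw [mul_eq F hX hY]
  infer_instance

theorem mul_natural {X X' Y Y' : Space} (f : Map X X') (g : Map Y Y')
    (h : Map (X.prod Y) (X'.prod Y')) (hX : FC X) (hX' : FC X') (hY : FC Y) (hY' : FC Y')
    (e : ∀ x y, h.toFun (St.smash x y) = St.smash (f.toFun x) (g.toFun y)) :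
    mul F X Y ≫ map F h = (map F f ⊗ₘ map F g) ≫ mul F X' Y' := by
  rw [mul_eq F hX hY, mul_eq F hX' hY', map_eq F (fc_prod hX hY) (fc_prod hX' hY'),
    map_eq F hX hX', map_eq F hY hY', hm_tensor hX hX' hY hY' f g h e]
  simp only [Category.assoc, Iso.inv_hom_id_assoc, Functor.Monoidal.μIso_hom,
    MonoidalCategory.tensorHom_comp_tensorHom_assoc, Iso.inv_hom_id, Category.comp_id]
  rw [← Functor.LaxMonoidal.μ_natural_assoc]
  simp only [MonoidalCategory.tensorHom_comp_tensorHom_assoc]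

theorem mul_assoc {X Y Z : Space} (a : Map ((X.prod Y).prod Z) (X.prod (Y.prod Z)))
    (hX : FC X) (hY : FC Y) (hZ : FC Z)
    (e : ∀ (x : X.Pt) (y : Y.Pt) (z : Z.Pt),
      a.toFun (St.smash (St.smash x y) z) = St.smash x (St.smash y z)) :
    (mul F X Y ⊗ₘ 𝟙 (obj F Z)) ≫ mul F (X.prod Y) Z ≫ map F a =
      (α_ (obj F X) (obj F Y) (obj F Z)).hom ≫ (𝟙 (obj F X) ⊗ₘ mul F Y Z) ≫
        mul F X (Y.prod Z) := by
  have ha : hm (fc_prod (fc_prod hX hY) hZ) (fc_prod hX (fc_prod hY hZ)) a =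
      (α_ (ob hX) (ob hY) (ob hZ)).hom := by
    apply ObjectProperty.hom_ext
    apply tensor_ext₃ (X := toLC X) (Y := toLC Y) (Z := toLC Z)
      (W := toLC X ⊗ (toLC Y ⊗ toLC Z))
    intro x y z
    refine (e x y z).trans ?_
    exact (app_associator_smash (toLC X) (toLC Y) (toLC Z) x y z).symm
  rw [mul_eq F hX hY, mul_eq F (fc_prod hX hY) hZ, mul_eq F hY hZ, mul_eq F hX (fc_prod hY hZ),
    map_eq F (fc_prod (fc_prod hX hY) hZ) (fc_prod hX (fc_prod hY hZ)), ha]
  simp only [Category.assoc, Iso.inv_hom_id_assoc, Functor.Monoidal.μIso_hom,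
    MonoidalCategory.tensorHom_comp_tensorHom_assoc, Iso.inv_hom_id, Category.comp_id,
    Category.id_comp]
  have h1 : ((((oi F hX).hom ⊗ₘ (oi F hY).hom) ≫ Functor.LaxMonoidal.μ F.S (ob hX) (ob hY)) ⊗ₘ
      (oi F hZ).hom) = (((oi F hX).hom ⊗ₘ (oi F hY).hom) ⊗ₘ (oi F hZ).hom) ≫
        (Functor.LaxMonoidal.μ F.S (ob hX) (ob hY) ▷ _) := by
    rw [← MonoidalCategory.tensorHom_id, MonoidalCategory.tensorHom_comp_tensorHom,
      Category.comp_id]
  have h2 : ((oi F hX).hom ⊗ₘ (((oi F hY).hom ⊗ₘ (oi F hZ).hom) ≫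
      Functor.LaxMonoidal.μ F.S (ob hY) (ob hZ))) = ((oi F hX).hom ⊗ₘ ((oi F hY).hom ⊗ₘ
        (oi F hZ).hom)) ≫ (_ ◁ Functor.LaxMonoidal.μ F.S (ob hY) (ob hZ)) := by
    rw [← MonoidalCategory.id_tensorHom, MonoidalCategory.tensorHom_comp_tensorHom,
      Category.comp_id]
  have h3 := Functor.LaxMonoidal.associativity F.S (ob hX) (ob hY) (ob hZ)
  have h4 := MonoidalCategory.associator_naturality (oi F hX).hom (oi F hY).hom (oi F hZ).hom
  rw [h1, h2]
  simp only [Category.assoc]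
  have h5 := congrArg (fun k => (((oi F hX).hom ⊗ₘ (oi F hY).hom) ⊗ₘ (oi F hZ).hom) ≫ k ≫
    (oi F (fc_prod hX (fc_prod hY hZ))).inv) h3
  simp only [Category.assoc] at h5
  refine Eq.trans h5 ?_
  rw [← Category.assoc, h4, Category.assoc]
  rfl

theorem mul_unit {X : Space} (a : Map (Pn.prod X) X) (hX : FC X)
    (e : ∀ x, a.toFun (St.smash (Space.pt (X := Pn) ()) x) = x) :
    (((Functor.Monoidal.εIso F.S).hom ≫ (oi F fcPn).inv) ⊗ₘ 𝟙 (obj F X)) ≫ mul F Pn X ≫
      map F a = (λ_ (obj F X)).hom := by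
  have ha : hm (fc_prod fcPn hX) hX a = (λ_ (ob hX)).hom := by
    apply ObjectProperty.hom_ext
    apply tensor_ext (X := toLC Pn) (Y := toLC X) (Z := toLC X)
    intro y x
    refine (e x).trans ?_
    exact (app_leftUnitor_smash (toLC X) x).symm
  rw [mul_eq F fcPn hX, map_eq F (fc_prod fcPn hX) hX, ha]
  simp only [Category.assoc, Iso.inv_hom_id_assoc, Functor.Monoidal.μIso_hom,
    MonoidalCategory.tensorHom_comp_tensorHom_assoc, Iso.inv_hom_id, Category.comp_id,
    Category.id_comp, Functor.Monoidal.εIso_hom]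
  have h1 : (Functor.LaxMonoidal.ε F.S ⊗ₘ (oi F hX).hom) =
      (𝟙_ T.C ◁ (oi F hX).hom) ≫ (Functor.LaxMonoidal.ε F.S ▷ _) := by
    rw [MonoidalCategory.tensorHom_def']
  have h2 := Functor.LaxMonoidal.left_unitality F.S (ob hX)
  have h3 := MonoidalCategory.leftUnitor_naturality (oi F hX).hom
  have h5 := congrArg (fun k => (𝟙_ T.C ◁ (oi F hX).hom) ≫ k ≫ (oi F hX).inv) h2
  simp only [Category.assoc] at h5
  rw [h1, Category.assoc]
  refine h5.symm.trans ?_
  rw [← Category.assoc, h3, Category.assoc, Iso.hom_inv_id, Category.comp_id]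

theorem mul_comm {X Y : Space} (a : Map (X.prod Y) (Y.prod X)) (hX : FC X) (hY : FC Y)
    (e : ∀ x y, a.toFun (St.smash x y) = St.smash y x) :
    mul F X Y ≫ map F a = (β_ (obj F X) (obj F Y)).hom ≫ mul F Y X := by
  have ha : hm (fc_prod hX hY) (fc_prod hY hX) a = (β_ (ob hX) (ob hY)).hom := by
    apply ObjectProperty.hom_ext
    apply tensor_ext (X := toLC X) (Y := toLC Y) (Z := toLC Y ⊗ toLC X)
    intro x y
    refine (e x y).trans ?_
    exact (app_braiding_smash (toLC X) (toLC Y) x y).symm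
  rw [mul_eq F hX hY, mul_eq F hY hX, map_eq F (fc_prod hX hY) (fc_prod hY hX), ha]
  simp only [Category.assoc, Iso.inv_hom_id_assoc, Functor.Monoidal.μIso_hom]
  have h2 := Functor.LaxBraided.braided (F := F.S) (ob hX) (ob hY)
  have h3 := BraidedCategory.braiding_naturality (oi F hX).hom (oi F hY).hom
  have h5 := congrArg (fun k => ((oi F hX).hom ⊗ₘ (oi F hY).hom) ≫ k ≫
    (oi F (fc_prod hY hX)).inv) h2
  simp only [Category.assoc] at h5
  rw [h5, ← Category.assoc, h3, Category.assoc]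

/-- the map from the line to the suspension of the unit -/
noncomputable def line : obj F Rr ⟶ (𝟙_ T.C)⟦(1 : ℤ)⟧ := (oi F fcRr).hom ≫ F.line.hom

theorem cone {X Y C : Space} (f : Map X Y) (j : Map Y C) (k : Map (X.prod Hh) C)
    (d : Map C (X.prod Rr)) (δ : obj F C ⟶ obj F X ⊗ obj F Rr) (hX : FC X) (hY : FC Y)
    (hC : FC C) (h : IsCone f j k d) (hδ : δ ≫ mul F X Rr = map F d) :
    Triangle.mk (map F f) (map F j)
      (δ ≫ (𝟙 (obj F X) ⊗ₘ line F) ≫ (T.tensor.e (obj F X)).hom) ∈ distTriang T.C := by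
  obtain ⟨hsq, hj, hk⟩ := (isCone_iff f j k d).mp h
  have D := F.cone (hm hX hY f) (hm hY hC j) (toHom (X := X.prod Hh) k) hsq
    (hm hC (fc_prod hX fcRr) d) hj hk
  have h1 : (oi F hC).hom ≫ F.S.map (hm hC (fc_prod hX fcRr) d) ≫
      (Functor.Monoidal.μIso F.S (ob hX) (ob fcRr)).inv =
        δ ≫ ((oi F hX).hom ⊗ₘ (oi F fcRr).hom) := by
    rw [← Category.assoc, Iso.comp_inv_eq]
    rw [mul_eq F hX fcRr, map_eq F hC (fc_prod hX fcRr)] at hδ
    have h2 := congrArg (· ≫ (oi F (fc_prod hX fcRr)).hom) hδ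
    simp only [Category.assoc, Iso.inv_hom_id] at h2
    have h3 : δ ≫ ((oi F hX).hom ⊗ₘ (oi F fcRr).hom) ≫
        (Functor.Monoidal.μIso F.S (ob hX) (ob fcRr)).hom ≫ 𝟙 _ =
      (oi F hC).hom ≫ F.S.map (hm hC (fc_prod hX fcRr) d) ≫ 𝟙 _ := h2
    rw [Category.comp_id, Category.comp_id] at h3
    rw [Category.assoc]
    exact h3.symm
  refine isomorphic_distinguished _ D _ (Triangle.isoMk _ _ (oi F hX) (oi F hY) (oi F hC)
    ?_ ?_ ?_)
  · change map F f ≫ (oi F hY).hom = (oi F hX).hom ≫ F.S.map (hm hX hY f)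
    rw [map_eq F hX hY]
    simp only [Category.assoc, Iso.inv_hom_id, Category.comp_id]
  · change map F j ≫ (oi F hC).hom = (oi F hY).hom ≫ F.S.map (hm hY hC j)
    rw [map_eq F hY hC]
    simp only [Category.assoc, Iso.inv_hom_id, Category.comp_id]
  · change (δ ≫ (𝟙 (obj F X) ⊗ₘ line F) ≫ (T.tensor.e (obj F X)).hom) ≫
      (shiftFunctor T.C (1 : ℤ)).map (oi F hX).hom = (oi F hC).hom ≫
        (F.S.map (hm hC (fc_prod hX fcRr) d) ≫
          (Functor.Monoidal.μIso F.S (ob hX) (ob fcRr)).inv ≫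
          (F.S.obj (ob hX) ◁ F.line.hom) ≫ (T.tensor.e (F.S.obj (ob hX))).hom)
    have h4 : (oi F hC).hom ≫
        (F.S.map (hm hC (fc_prod hX fcRr) d) ≫
          (Functor.Monoidal.μIso F.S (ob hX) (ob fcRr)).inv ≫
          (F.S.obj (ob hX) ◁ F.line.hom) ≫ (T.tensor.e (F.S.obj (ob hX))).hom) =
        (δ ≫ ((oi F hX).hom ⊗ₘ (oi F fcRr).hom)) ≫
          (F.S.obj (ob hX) ◁ F.line.hom) ≫ (T.tensor.e (F.S.obj (ob hX))).hom := by
      rw [← h1]
      simp only [Category.assoc]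
    rw [h4, Category.assoc, Category.assoc, Category.assoc, ← T.tensor.e_naturality]
    congr 1
    rw [← Category.assoc, ← Category.assoc]
    congr 1
    rw [← MonoidalCategory.id_tensorHom, ← MonoidalCategory.tensorHom_id,
      MonoidalCategory.tensorHom_comp_tensorHom, MonoidalCategory.tensorHom_comp_tensorHom,
      Category.comp_id, Category.comp_id, Category.id_comp]
    rfl

theorem full {X Y : Space} (g : obj F X ⟶ obj F Y) (hX : FC X) (hY : FC Y) :
    ∃ (n : ℕ) (h : Map (X.prod (Rn n)) (Y.prod (Rn n))),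
      mul F X (Rn n) ≫ map F h = (g ⊗ₘ 𝟙 (obj F (Rn n))) ≫ mul F Y (Rn n) := by
  obtain ⟨n, h, hh⟩ := F.full (X := ob hX) (Y := ob hY) ((oi F hX).inv ≫ g ≫ (oi F hY).hom)
  refine ⟨n, ofHom (X := X.prod (Rn n)) (Y := Y.prod (Rn n)) h.hom, ?_⟩
  rw [mul_eq F hX (.sph n), mul_eq F hY (.sph n), map_eq F (fc_prod hX (.sph n))
    (fc_prod hY (.sph n))]
  have e1 : F.S.map (hm (fc_prod hX (.sph n)) (fc_prod hY (.sph n))
      (ofHom (X := X.prod (Rn n)) (Y := Y.prod (Rn n)) h.hom)) =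
      (Functor.Monoidal.μIso F.S (ob hX) (ob (.sph n))).inv ≫
        (((oi F hX).inv ≫ g ≫ (oi F hY).hom) ▷ F.S.obj (ob (.sph n))) ≫
      (Functor.Monoidal.μIso F.S (ob hY) (ob (.sph n))).hom := hh
  rw [e1]
  simp only [Category.assoc, Iso.inv_hom_id_assoc, Iso.hom_inv_id_assoc]
  rw [← MonoidalCategory.tensorHom_id]
  simp only [MonoidalCategory.tensorHom_comp_tensorHom_assoc, Iso.hom_inv_id_assoc,
    Category.comp_id, Category.id_comp]

theorem faithful {X Y : Space} (f g : Map X Y) (hX : FC X) (hY : FC Y)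
    (h : map F f = map F g) :
    ∃ (n : ℕ) (f' g' : Map (X.prod (Rn n)) (Y.prod (Rn n))),
      (∀ x y, f'.toFun (St.smash x y) = St.smash (f.toFun x) y) ∧
      (∀ x y, g'.toFun (St.smash x y) = St.smash (g.toFun x) y) ∧
      St.Homotopic f'.toFun g'.toFun := by
  rw [map_eq F hX hY, map_eq F hX hY, Iso.cancel_iso_hom_left, Iso.cancel_iso_inv_right] at h
  obtain ⟨n, H⟩ := F.faithful _ _ h
  refine ⟨n, ofHom (X := X.prod (Rn n)) (Y := Y.prod (Rn n)) (toHom f ▷ LC.Sph n),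
    ofHom (X := X.prod (Rn n)) (Y := Y.prod (Rn n)) (toHom g ▷ LC.Sph n), fun x y => ?_,
    fun x y => ?_, ?_⟩
  · exact app_whiskerRight_smash (toHom f) (LC.Sph n) x y
  · exact app_whiskerRight_smash (toHom g) (LC.Sph n) x y
  · exact (homotopic_iff' _ _).mpr H

end OfFunctor

/-- The suspension spectrum functor in the form used by the statement. -/
noncomputable def ofSpaceFunctor {T : SHCat} (F : SpaceFunctor T.C) : Susp T where
  toSuspData := OfFunctor.data F
  map_id f hX h := OfFunctor.map_id F f hX h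
  map_comp f g h hX hY hZ e := OfFunctor.map_comp F f g h hX hY hZ e
  map_homotopic {X Y} f g hX hY h := by
    have h1 := F.map_eq (OfFunctor.hm hX hY f) (OfFunctor.hm hX hY g) ((homotopic_iff' f g).mp h)
    change OfFunctor.map F f = OfFunctor.map F g
    rw [OfFunctor.map_eq F hX hY, OfFunctor.map_eq F hX hY, h1]
  isZero {X} hX h := by
    have h1 : IsZero (F.S.obj (OfFunctor.ob hX)) := F.isZero h
    exact (h1.of_iso (OfFunctor.oi F hX)).eq_of_src _ _
  unit_isIso := by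
    change IsIso ((Functor.Monoidal.εIso F.S).hom ≫ (OfFunctor.oi F fcPn).inv)
    infer_instance
  line_isIso := by
    change IsIso ((OfFunctor.oi F fcRr).hom ≫ F.line.hom)
    infer_instance
  mul_isIso hX hY := OfFunctor.isIso_mul F hX hY
  mul_natural f g h hX hX' hY hY' e := OfFunctor.mul_natural F f g h hX hX' hY hY' e
  mul_assoc a hX hY hZ e := OfFunctor.mul_assoc F a hX hY hZ e
  mul_unit a hX e := OfFunctor.mul_unit F a hX e
  mul_comm a hX hY e := OfFunctor.mul_comm F a hX hY e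
  cone f j k d δ hX hY hC h hδ := OfFunctor.cone F f j k d δ hX hY hC h hδ
  full g hX hY := OfFunctor.full F g hX hY
  faithful f g hX hY h := OfFunctor.faithful F f g hX hY h

end Vale.Agent.P251.St
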