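import Vale.Agent.P251.St.ToChrom
import Vale.Agent.P251.St.OfFunctor
import Vale.Agent.P251.H.Exists

/-!
# P251: the final statement, assembled from its parts

* `nonempty_susp`: there is a stable homotopy category with a suspension spectrum functor;
* `exists_isLoc`: Bousfield localizations exist in every stable homotopy category;
* `statement_of`: the final statement, from `Z.NoRetraction F 5 5` for all suspension spectrum
  functors `F`.
-/

open CategoryTheory MonoidalCategory Limits

namespace Vale.Agent.P251.St

open SHCat

/-- There is a stable homotopy category with a suspension spectrum functor. -/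
theorem nonempty_susp : ∃ T : SHCat, Nonempty (Susp T) := by
  obtain ⟨T, ⟨F⟩, _⟩ := H.exists_stable
  exact ⟨T, ⟨ofSpaceFunctor F⟩⟩

/-- Bousfield localizations exist in every stable homotopy category. -/
theorem exists_isLoc (T : SHCat) (E X : T.C) : ∃ (Y : T.C) (f : Hom X Y), IsLoc E f := by
  have := locallySmall_self.{0} T.C
  obtain ⟨b⟩ := H.nonempty_bLoc_of_stableCat (T := T.C) E X
  exact ⟨b.obj, b.toLoc, (isLoc_iff E b.toLoc).mpr ⟨b.isIso, b.isLocal⟩⟩

/-- The final statement from its version in the language of the library. -/
theorem statement_of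
    (hN : ∀ (T : SHCat) (F : I.SpaceFunctor T.C), Z.NoRetraction F 5 5) :
    (∃ T : SHCat, Nonempty (Susp T)) ∧ ∀ (T : SHCat) (S : Susp T),
      (∀ E X : T.C, ∃ (Y : T.C) (f : Hom X Y), IsLoc E f) ∧ NoRetraction S 5 5 :=
  ⟨nonempty_susp, fun T S => ⟨exists_isLoc T, noRetraction_of S (hN T S.toSpaceFunctor)⟩⟩

end Vale.Agent.P251.St
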