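import Vale.Agent.P251.St.Base
import Mathlib.LinearAlgebra.Matrix.ConjTranspose
import Mathlib.LinearAlgebra.Matrix.Trace
import Mathlib.Topology.Instances.Matrix
import Mathlib.Analysis.Complex.Basic

/-!
# P251, statement layer: Morava K-theories and the map `L_{n-1} S_p ⟶ L_{n-1} L_{K(n)} S_p`

* `RingSp T` : commutative ring spectra.
* `Oriented S R` : complex orientations (multiplicative Thom classes).
* `IsMorava S p n R` : `R` is a Morava `K`-theory of height `n` at `p`.
* `IsLoc E f` : `f` is the Bousfield localization with respect to `E`.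
* `NoRetraction S p n` : the map `L_{n-1} S_p ⟶ L_{n-1} L_{K(n)} S_p` has no retraction.
-/

open CategoryTheory MonoidalCategory OnePoint Matrix

noncomputable section

namespace Vale.Agent.P251.St

open SHCat

/-! ### Thom spaces of the tautological bundles -/

/-- The space `ℂ^n` (`(ℂ^n)⁺` is the sphere of dimension `2 n`). -/
abbrev Cn (n : ℕ) : Space := ⟨Fin n → ℂ⟩

/-- `P` is an orthogonal projection of rank `n` of `ℂ^A`. -/
def IsProj (n : ℕ) {A : Type} [Fintype A] (P : Matrix A A ℂ) : Prop :=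
  P * P = P ∧ Pᴴ = P ∧ P.trace = n

/-- The total space of the tautological bundle over the Grassmannian of `n`-dimensional subspaces
of `ℂ^A`: pairs `(P, v)` of a projection and a vector in its image. -/
abbrev ThSet (n : ℕ) (A : Type) [Fintype A] : Set (Matrix A A ℂ × (A → ℂ)) :=
  {x | IsProj n x.1 ∧ x.1 *ᵥ x.2 = x.2}

/-- The projective space of `ℂ^A`: projections of rank one. -/
abbrev CPSet (A : Type) [Fintype A] : Set (Matrix A A ℂ) := {P | IsProj 1 P}

theorem isClosed_isProj (n : ℕ) (A : Type) [Fintype A] :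
    IsClosed {P : Matrix A A ℂ | IsProj n P} := by
  have h : {P : Matrix A A ℂ | IsProj n P} =
      {P : Matrix A A ℂ | P * P = P} ∩ ({P : Matrix A A ℂ | Pᴴ = P} ∩
        {P : Matrix A A ℂ | P.trace = n}) := rfl
  rw [h]
  exact (isClosed_eq (by fun_prop) (by fun_prop)).inter
    ((isClosed_eq (by fun_prop) (by fun_prop)).inter (isClosed_eq (by fun_prop) (by fun_prop)))

theorem lc_matrix (A : Type) [Fintype A] : LocallyCompactSpace (Matrix A A ℂ) :=
  inferInstanceAs (LocallyCompactSpace (A → A → ℂ))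

theorem lc_th (n : ℕ) (A : Type) [Fintype A] : LocallyCompactSpace (ThSet n A) := by
  have := lc_matrix A
  have h : IsClosed (ThSet n A) := ((isClosed_isProj n A).preimage continuous_fst).inter
    (isClosed_eq (by fun_prop) (by fun_prop))
  exact h.isClosedEmbedding_subtypeVal.locallyCompactSpace

theorem lc_cp (A : Type) [Fintype A] : LocallyCompactSpace (CPSet A) := by
  have := lc_matrix A
  exact (isClosed_isProj 1 A).isClosedEmbedding_subtypeVal.locallyCompactSpace

/-- The Thom space of the tautological bundle is `(Th n A)⁺`. -/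
def Th (n : ℕ) (A : Type) [Fintype A] : Space := @Space.mk (ThSet n A) _ (lc_th n A) _

/-- The projective space of `ℂ^A`. -/
def CP (A : Type) [Fintype A] : Space := @Space.mk (CPSet A) _ (lc_cp A) _

/-- `f : X⁺ → (Th n A)⁺` is the map `x ↦ (P x, v x)`. -/
def IsPair {X : Space} {n : ℕ} {A : Type} [Fintype A] (P : X.carrier → Matrix A A ℂ)
    (v : X.carrier → A → ℂ) (f : Map X (Th n A)) : Prop :=
  ∀ x : X.carrier, ∃ y : (Th n A).carrier, f.toFun (Space.pt x) = Space.pt y ∧ y.1 = (P x, v x)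

/-! ### Ring spectra and their cohomology -/

variable {T : SHCat}

/-- A homotopy commutative ring spectrum. -/
structure RingSp (T : SHCat) where
  /-- the underlying spectrum -/
  obj : T.C
  [mon : MonObj obj]
  [comm : IsCommMonObj obj]

attribute [instance] RingSp.mon RingSp.comm

/-- the multiplication -/
abbrev RingSp.mul (R : RingSp T) : Hom (ten R.obj R.obj) R.obj := MonObj.mul

/-- the unit -/
abbrev RingSp.unit (R : RingSp T) : Hom T.one R.obj := MonObj.one

/-- the multiple `a f` of a morphism by an integer -/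
abbrev zmul {A B : T.C} (a : ℤ) (f : Hom A B) : Hom A B := a • f

/-- the sphere of dimension `k` -/
abbrev sphere (T : SHCat) (k : ℤ) : T.C := (𝟙_ T.C)⟦k⟧

/-- the interchange `(A ⊗ B) ⊗ (C ⊗ D) ⟶ (A ⊗ C) ⊗ (B ⊗ D)` -/
abbrev exch (A B C D : T.C) : Hom (ten (ten A B) (ten C D)) (ten (ten A C) (ten B D)) :=
  tensorμ A B C D

variable (S : Susp T) (R : RingSp T)

/-- The cohomology group `R^{2n}(X⁺)`. -/
abbrev Coh (n : ℕ) (X : Space) : Type := Hom (S.obj X) (ten R.obj (S.obj (Cn n)))

variable {S R}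

/-- `z ∈ R^{2(n+m)}(X⁺ ∧ Y⁺)` is the external product of `x ∈ R^{2n}(X⁺)` and `y ∈ R^{2m}(Y⁺)`. -/
def IsCross {n m : ℕ} {X Y : Space} (x : Coh S R n X) (y : Coh S R m Y)
    (z : Coh S R (n + m) (X.prod Y)) : Prop :=
  ∀ g : Map ((Cn n).prod (Cn m)) (Cn (n + m)),
    (∀ (a : Fin n → ℂ) (b : Fin m → ℂ), g.toFun (Space.pt (X := (Cn n).prod (Cn m)) (a, b)) =
      Space.pt (X := Cn (n + m)) (Fin.append a b)) →
    comp (S.mul X Y) z = comp (tenHom x y)
      (comp (exch R.obj (S.obj (Cn n)) R.obj (S.obj (Cn m)))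
        (tenHom R.mul (comp (S.mul (Cn n) (Cn m)) (S.map g))))

variable (S R)

/-- A complex orientation of the ring spectrum `R`: a multiplicative family of Thom classes
`θ n A ∈ R^{2n}(Th n A)` of the tautological bundles, compatible with isometries and direct sums
and normalised on the fibre `ℂ^n`. -/
structure Oriented where
  /-- the Thom classes -/
  θ (n : ℕ) (A : Type) [Fintype A] : Coh S R n (Th n A)
  isom : ∀ {n : ℕ} {A B : Type} [Fintype A] [Fintype B] [DecidableEq A] (u : Matrix B A ℂ)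
    (f : Map (Th n A) (Th n B)), uᴴ * u = 1 →
    IsPair (fun x : ThSet n A => u * x.1.1 * uᴴ) (fun x : ThSet n A => u *ᵥ x.1.2) f →
    comp (S.map f) (θ n B) = θ n A
  sum : ∀ {n m : ℕ} {A B : Type} [Fintype A] [Fintype B]
    (f : Map ((Th n A).prod (Th m B)) (Th (n + m) (A ⊕ B))),
    IsPair (fun x : ThSet n A × ThSet m B => fromBlocks x.1.1.1 0 0 x.2.1.1)
      (fun x : ThSet n A × ThSet m B => Sum.elim x.1.1.2 x.2.1.2) f →
    IsCross (θ n A) (θ m B) (comp (S.map f) (θ (n + m) (A ⊕ B)))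
  fibre : ∀ (n : ℕ) (f : Map (Cn n) (Th n (Fin n))),
    IsPair (fun _ => 1) (fun x => x) f →
    comp (leftUnit (S.obj (Cn n))) (comp (S.map f) (θ n (Fin n))) =
      tenHom R.unit (ident (S.obj (Cn n)))

/-- `π_k R = 0` unless `d` divides `k`, and `π_0 R = 𝔽_p`. -/
structure IsPeriodicField (p : ℕ) (d : ℤ) : Prop where
  sparse : ∀ (k : ℤ) (f : Hom (sphere T k) R.obj), ¬ d ∣ k → f = 0
  char : zmul p R.unit = 0
  ne : R.unit ≠ 0
  gen : ∀ f : Hom T.one R.obj, ∃ a : ℤ, f = zmul a R.unit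

/-- The `p`-series of the orientation `o` is `[p](x) = v x ^ (N + 1)` modulo `x ^ (N + 2)` with an
invertible `v ∈ π_{2N} R`. Here `w ∈ R^{2N}(pt)` is the inverse of `v`; the equation
`x ^ (N + 1) = w [p](x)` is stated on the projective space of `ℂ^(N + 2)`: `e` is the zero section
of `N + 1` copies of the tautological line bundle, and `t` is the one of its `p`-th tensor
power. -/
def HasPSeries (p N : ℕ) (o : Oriented S R) : Prop :=
  ∃ (v : Hom (S.obj (Cn N)) R.obj) (w : Coh S R N Pn),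
    comp S.unit (comp w (comp (tenHom (ident R.obj) v) R.mul)) = R.unit ∧
      ∀ (e : Map (CP (Fin (N + 2))) (Th (N + 1) (Fin (N + 1) × Fin (N + 2))))
        (t : Map (CP (Fin (N + 2))) (Th 1 (Fin p → Fin (N + 2))))
        (q : Map (Pn.prod (CP (Fin (N + 2)))) (CP (Fin (N + 2)))),
        IsPair (fun (x : CPSet (Fin (N + 2))) i j => if i.1 = j.1 then x.1 i.2 j.2 else 0)
          (fun _ => 0) e →
        IsPair (fun (x : CPSet (Fin (N + 2))) i j => ∏ k, x.1 (i k) (j k)) (fun _ => 0) t →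
        (∀ x : (CP (Fin (N + 2))).carrier, q.toFun (Space.pt (X := Pn.prod (CP _)) ((), x)) = Space.pt x) →
        IsCross w (comp (S.map t) (o.θ 1 _)) (comp (S.map q) (comp (S.map e) (o.θ (N + 1) _)))

/-- `R` is the rational Eilenberg-Mac Lane spectrum: `π_* R = ℚ` in degree `0`. -/
structure IsRational : Prop where
  conc : ∀ (k : ℤ) (f : Hom (sphere T k) R.obj), k ≠ 0 → f = 0
  ne : R.unit ≠ 0
  div : ∀ m : ℤ, m ≠ 0 → Function.Bijective fun f : Hom T.one R.obj => zmul m f
  gen : ∀ f : Hom T.one R.obj, ∃ a m : ℤ, m ≠ 0 ∧ zmul m f = zmul a R.unit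

/-- `R` is a Morava `K`-theory of height `n` at the prime `p`. -/
def IsMorava (p n : ℕ) : Prop :=
  if n = 0 then IsRational R else
    IsPeriodicField R p (2 * ((p : ℤ) ^ n - 1)) ∧ ∃ o : Oriented S R, HasPSeries S R p (p ^ n - 1) o

/-! ### Bousfield localizations -/

/-- `W` is `E`-acyclic: `E ⊗ W = 0`. -/
def Acyclic (E W : T.C) : Prop := ident (ten E W) = 0

/-- `f : X ⟶ Y` is the Bousfield localization of `X` with respect to `E`. -/
def IsLoc (E : T.C) {X Y : T.C} (f : Hom X Y) : Prop :=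
  IsIso (tenHom (ident E) f) ∧ ∀ W, Acyclic E W → ∀ g : Hom W Y, g = 0

/-- `E` has the Bousfield class of `K(0) ∨ ⋯ ∨ K(n-1)`, which is the one of the Johnson-Wilson
spectrum `E(n-1)`. -/
def IsClassE (n : ℕ) (K : ℕ → RingSp T) (E : T.C) : Prop :=
  ∀ W : T.C, Acyclic E W ↔ ∀ i < n, Acyclic (K i).obj W

/-- The canonical map `L_{n-1} S_p ⟶ L_{n-1} L_{K(n)} S_p` has no retraction. -/
def NoRetraction (p n : ℕ) : Prop :=
  ∀ (K : ℕ → RingSp T) (E M : T.C) (a : Hom T.one M) (b : Hom M (sus T.one)) (Sp X Z Y : T.C)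
    (c : Hom T.one Sp) (l : Hom Sp X) (z : Hom Sp Z) (y : Hom Z Y) (i : Hom X Y),
    (∀ i ≤ n, IsMorava S (K i) p i) → IsClassE n K E → Dist (zmul p (ident T.one)) a b →
    IsLoc M c → IsLoc E l → IsLoc (K n).obj z → IsLoc E y → comp l i = comp z y →
    ¬ ∃ r : Hom Y X, comp i r = ident X

end Vale.Agent.P251.St
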