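import Vale.Agent.P251.St.Base
import Vale.Agent.P251.G.FC
import Vale.Agent.P251.G.Pushout
import Vale.Agent.P251.G.CellLC

/-!
# P251, statement layer: comparison of `Space`, `Map`, `FC` with `LC`, its morphisms, `LC.FC`

This file does not enter the final statement.
-/

open CategoryTheory MonoidalCategory OnePoint Topology

namespace Vale.Agent.P251.St

open G G.LC

/-- the object of `LC` -/
abbrev toLC (X : Space) : LC := @LC.mk X.carrier X.top X.lc X.t2

/-- the space -/
abbrev ofLC (X : LC) : Space := ⟨X.carrier⟩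

theorem toLC_ofLC (X : LC) : toLC (ofLC X) = X := rfl

theorem ofLC_toLC (X : Space) : ofLC (toLC X) = X := rfl

@[ext]
theorem Map.ext {X Y : Space} {f g : Map X Y} (h : ∀ x, f.toFun x = g.toFun x) : f = g := by
  obtain ⟨f, hf, hf'⟩ := f
  obtain ⟨g, hg, hg'⟩ := g
  obtain rfl : f = g := funext h
  rfl

/-- the morphism of `LC` given by a `Map` -/
abbrev toHom {X Y : Space} (f : Map X Y) : toLC X ⟶ toLC Y := homMk f.toFun f.cont f.map_infty

/-- the `Map` given by a morphism of `LC` -/
abbrev ofHom {X Y : Space} (f : toLC X ⟶ toLC Y) : Map X Y :=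
  ⟨app f, continuous_app f, app_infty f⟩

theorem toHom_ofHom {X Y : Space} (f : toLC X ⟶ toLC Y) : toHom (ofHom f) = f := rfl

theorem ofHom_toHom {X Y : Space} (f : Map X Y) : ofHom (toHom f) = f := rfl

theorem smash_eq_smash {X Y : Space} (x : X.Pt) (y : Y.Pt) : St.smash x y = LC.smash x y := rfl

/-! ### homotopies -/

section htpy

variable {X Y Z : Space}

/-- the morphism `X ⊗ II ⟶ Y` given by a homotopy -/
def htpyMap (H : unitInterval → X.Pt → Y.Pt) (h : IsHtpy H) : toLC X ⊗ II ⟶ toLC Y :=
  ofCompactification (X := LC.of (X.carrier × unitInterval)) (Y := toLC Y)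
    (fun p => (p.2, (p.1 : OnePoint X.carrier)))
    ((IsOpenEmbedding.id.prodMap OnePoint.isOpenEmbedding_coe).comp
        (Homeomorph.prodComm X.carrier unitInterval).isOpenEmbedding)
    (fun p : unitInterval × OnePoint X.carrier => H p.1 p.2) h.1 (by
      rintro ⟨t, x⟩ hk
      have hx : x = ∞ := by
        by_contra hx
        obtain ⟨y, rfl⟩ := OnePoint.ne_infty_iff_exists.mp hx
        exact hk ⟨(y, t), rfl⟩
      subst hx
      exact h.2 t)

theorem app_htpyMap (H : unitInterval → X.Pt → Y.Pt) (h : IsHtpy H) (x : X.Pt)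
    (t : unitInterval) :
    app (htpyMap H h) (LC.smash x (t : OnePoint unitInterval)) = H t x := by
  induction x using OnePoint.rec with
  | infty => exact (app_infty _).trans (h.2 t).symm
  | coe x => rfl

theorem isHtpy_of_hom (K : toLC X ⊗ II ⟶ toLC Y) :
    IsHtpy (fun t x => app K (LC.smash x (t : OnePoint unitInterval)) :
      unitInterval → X.Pt → Y.Pt) := by
  constructor
  · exact (continuous_app K).comp (continuous_smash.comp
        (continuous_snd.prodMk (OnePoint.continuous_coe.comp continuous_fst)))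
  · intro t
    change app K (LC.smash ∞ (t : OnePoint unitInterval)) = ∞
    rw [smash_infty_left]
    exact app_infty K

theorem homotopic_iff' (f g : Map X Y) :
    St.Homotopic f.toFun g.toFun ↔ LC.Homotopic (toHom f) (toHom g) := by
  constructor
  · rintro ⟨H, h, h0, h1⟩
    refine ⟨htpyMap H h, ?_, ?_⟩
    · apply app_ext
      intro x
      rw [app_comp, app_incl, app_htpyMap, h0, app_homMk]
    · apply app_ext
      intro x
      rw [app_comp, app_incl, app_htpyMap, h1, app_homMk]
  · rintro ⟨K, h0, h1⟩
    refine ⟨_, isHtpy_of_hom K, ?_, ?_⟩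
    · funext x
      have := congrArg (fun k => app k x) h0
      simp only [app_comp, app_incl] at this
      exact this
    · funext x
      have := congrArg (fun k => app k x) h1
      simp only [app_comp, app_incl] at this
      exact this

theorem hequiv_iff (X Y : Space) : St.HEquiv X Y ↔ LC.HEquiv (toLC X) (toLC Y) := by
  constructor
  · rintro ⟨f, g, h1, h2⟩
    exact ⟨toHom f, toHom g,
      (homotopic_iff' ⟨g.toFun ∘ f.toFun, g.cont.comp f.cont, by
        rw [Function.comp_apply, f.map_infty, g.map_infty]⟩ ⟨id, continuous_id, rfl⟩).mp h1,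
      (homotopic_iff' ⟨f.toFun ∘ g.toFun, f.cont.comp g.cont, by
        rw [Function.comp_apply, g.map_infty, f.map_infty]⟩ ⟨id, continuous_id, rfl⟩).mp h2⟩
  · rintro ⟨f, g, h1, h2⟩
    exact ⟨ofHom f, ofHom g, (homotopic_iff' (ofHom (f ≫ g)) (ofHom (𝟙 _))).mpr h1,
      (homotopic_iff' (ofHom (g ≫ f)) (ofHom (𝟙 _))).mpr h2⟩

theorem cofib_iff {A B : Space} (i : Map A B) : St.Cofib i ↔ LC.Cofib (toHom i) := by
  constructor
  · intro hi Z f H hH
    obtain ⟨K, hK, h0, h1⟩ := hi (ofLC Z) (ofHom f) _ (isHtpy_of_hom (Y := ofLC Z) H) (by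
      funext a
      have := congrArg (fun k => app k a) hH
      simp only [app_comp, app_incl] at this
      exact this)
    refine ⟨htpyMap K hK, ?_, ?_⟩
    · apply app_ext
      intro x
      rw [app_comp, app_incl, app_htpyMap, h0]
    · apply tensor_ext
      intro a t
      rw [app_comp, app_whiskerRight_smash, app_htpyMap]
      exact congrFun (h1 t) a
  · intro hi Z f H hH h0
    obtain ⟨K, hK0, hK⟩ := hi (toLC Z) (toHom f) (htpyMap H hH) (by
      apply app_ext
      intro x
      rw [app_comp, app_incl, app_htpyMap, h0]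
      rfl)
    refine ⟨_, isHtpy_of_hom K, ?_, ?_⟩
    · funext x
      have := congrArg (fun k => app k x) hK0
      simp only [app_comp, app_incl] at this
      exact this
    · intro t
      funext a
      have h1 := congrArg (fun k => app k (LC.smash a (t : OnePoint unitInterval))) hK
      change app K (app (toHom i ▷ II) (LC.smash a (t : OnePoint unitInterval))) =
        app (htpyMap H hH) (LC.smash a (t : OnePoint unitInterval)) at h1
      rw [app_htpyMap, app_whiskerRight_smash] at h1
      exact h1

end htpy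

/-! ### finite cell spaces -/

theorem app_cofMap_iff {A B : LC} (i : A ⟶ B) (b : OnePoint B) :
    app (cofMap i) b = ∞ ↔ b ∈ Set.range (app i) := by
  rw [app_cofMap_eq_infty_iff]
  constructor
  · rintro (rfl | h)
    · exact ⟨∞, app_infty i⟩
    · exact h
  · exact Or.inr

theorem isQuot_cof {A B : LC} (i : A ⟶ B) :
    IsQuot (A := ofLC A) (B := ofLC B) (C := ofLC (cof i)) (ofHom i) (ofHom (cofMap i)) := by
  constructor
  · intro c
    induction c using OnePoint.rec with
    | infty => exact ⟨∞, app_infty _⟩
    | coe u => exact ⟨_, app_cofMap_coe i u⟩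
  · intro b b'
    change app (cofMap i) b = app (cofMap i) b' ↔ b = b' ∨ (b ∈ Set.range (app i) ∧
      b' ∈ Set.range (app i))
    constructor
    · intro h
      by_cases hb : b ∈ Set.range (app i)
      · right
        refine ⟨hb, ?_⟩
        rw [← app_cofMap_iff, ← h, app_cofMap_iff]
        exact hb
      · have hb' : b' ∉ Set.range (app i) := by
          rw [← app_cofMap_iff, ← h, app_cofMap_iff]
          exact hb
        left
        have key : ∀ b : OnePoint B, b ∉ Set.range (app i) → ∃ u : cof i, b = ((u.1 : B) : OnePoint B) := by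
          intro b hb
          induction b using OnePoint.rec with
          | infty => exact absurd ⟨∞, app_infty i⟩ hb
          | coe b => exact ⟨⟨b, hb⟩, rfl⟩
        obtain ⟨u, rfl⟩ := key b hb
        obtain ⟨u', rfl⟩ := key b' hb'
        rw [app_cofMap_coe, app_cofMap_coe] at h
        rw [OnePoint.coe_injective h]
    · rintro (rfl | ⟨h, h'⟩)
      · rfl
      · rw [app_cofMap_of_mem i h, app_cofMap_of_mem i h']

theorem nonempty_cof_iso {A B C : Space} {i : Map A B} {q : Map B C} (h : IsQuot i q) :
    Nonempty (cof (toHom i) ≅ toLC C) := by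
  have h0 : toHom i ≫ toHom q = 0 := by
    apply app_ext
    intro a
    change q.toFun (i.toFun a) = ∞
    rw [← q.map_infty]
    exact (h.2 _ _).mpr (Or.inr ⟨⟨a, rfl⟩, ⟨∞, i.map_infty⟩⟩)
  have hb : Function.Bijective (app (cofDesc (toHom i) (toHom q) h0)) := by
    have hc : ∀ b : OnePoint B.carrier,
        app (cofDesc (toHom i) (toHom q) h0) (app (cofMap (toHom i)) b) = q.toFun b := by
      intro b
      have := congrArg (fun k => app k b) (cofMap_cofDesc (toHom i) (toHom q) h0)
      exact this
    have hs := (isQuot_cof (toHom i)).1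
    constructor
    · intro x y hxy
      obtain ⟨b, rfl⟩ := hs x
      obtain ⟨b', rfl⟩ := hs y
      have h1 : q.toFun b = q.toFun b' := by rw [← hc, ← hc]; exact hxy
      exact ((isQuot_cof (toHom i)).2 b b').mpr ((h.2 b b').mp h1)
    · intro c
      obtain ⟨b, rfl⟩ := h.1 c
      exact ⟨_, hc b⟩
  have := G.Cell.isIso_of_bijective _ hb
  exact ⟨asIso (cofDesc (toHom i) (toHom q) h0)⟩

theorem fc_toLC {X : Space} (h : St.FC X) : LC.FC (toLC X) := by
  induction h with
  | empty => exact LC.FC.empty
  | sph n => exact LC.FC.sph n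
  | hequiv _ h ih => exact ih.hequiv ((hequiv_iff _ _).mp h)
  | ext hi hq _ _ ihA ihC =>
    obtain ⟨e⟩ := nonempty_cof_iso hq
    exact LC.FC.of_ext ((cofib_iff _).mp hi) ihA e ihC

theorem fc_ofLC {X : LC} (h : LC.FC X) : St.FC (ofLC X) := by
  induction h with
  | empty => exact St.FC.empty
  | sph n => exact St.FC.sph n
  | hequiv _ h ih => exact ih.hequiv ((hequiv_iff _ _).mpr h)
  | @ext A B i hi _ _ ihA ihC =>
    exact St.FC.ext ((cofib_iff (A := ofLC A) (B := ofLC B) (ofHom i)).mpr hi) (isQuot_cof i)
      ihA ihC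

theorem fc_iff (X : Space) : St.FC X ↔ LC.FC (toLC X) := ⟨fc_toLC, fc_ofLC⟩

end Vale.Agent.P251.St
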