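import Vale.Agent.P251.St.Coh

/-!
# P251, statement layer: monoidal lemmas for the comparison of the two forms of the height axiom,
the converse direction
-/

open CategoryTheory MonoidalCategory MonObj

universe v u

namespace Vale.Agent.P251.St

variable {C : Type u} [Category.{v} C] [MonoidalCategory C] [SymmetricCategory C]

section

variable {K N : C} [MonObj K] [IsCommMonObj K] (hβ : (β_ N N).hom = 𝟙 (N ⊗ N))
  (w : 𝟙_ C ⟶ K ⊗ N) (v : N ⟶ K) (hw : w ≫ K ◁ v ≫ μ[K] = η[K])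

include hβ in
theorem swap_aux : (β_ N (K ⊗ N)).hom ≫ (K ◁ v ≫ μ[K]) ▷ N =
    v ▷ (K ⊗ N) ≫ (α_ K K N).inv ≫ μ[K] ▷ N := by
  have h1 : (β_ N (K ⊗ N)).hom = (α_ N K N).inv ≫ (β_ N K).hom ▷ N := by
    rw [BraidedCategory.braiding_tensor_right_hom, hβ]
    simp
  rw [h1, Category.assoc, ← comp_whiskerRight, ← BraidedCategory.braiding_naturality_left_assoc,
    IsCommMonObj.mul_comm, comp_whiskerRight, associator_inv_naturality_left_assoc]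

include hβ hw in
/-- `v(n) w = 1 ⊗ n` -/
theorem swap_aux' : v ≫ (ρ_ K).inv ≫ K ◁ w ≫ (α_ K K N).inv ≫ μ[K] ▷ N =
    (λ_ N).inv ≫ η[K] ▷ N := by
  have h1 : (ρ_ N).inv ≫ N ◁ w ≫ (β_ N (K ⊗ N)).hom = (λ_ N).inv ≫ w ▷ N := by
    rw [BraidedCategory.braiding_naturality_right, rightUnitor_inv_braiding_assoc]
  rw [rightUnitor_inv_naturality_assoc, ← whisker_exchange_assoc, ← swap_aux hβ v,
    reassoc_of% h1, ← comp_whiskerRight, hw]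

/-- `k ⊗ n ↦ k v(n)` -/
abbrev actV (v : N ⟶ K) : K ⊗ N ⟶ K := K ◁ v ≫ μ[K]

include hw in
theorem w_actV : (ρ_ K).inv ≫ K ◁ w ≫ (α_ K K N).inv ≫ μ[K] ▷ N ≫ K ◁ v ≫ μ[K] = 𝟙 K := by
  have h1 : μ[K] ▷ N ≫ K ◁ v ≫ μ[K] = (α_ K K N).hom ≫ K ◁ (K ◁ v ≫ μ[K]) ≫ μ[K] := by
    rw [← whisker_exchange_assoc, MonObj.mul_assoc, MonoidalCategory.whiskerLeft_comp]
    simp
  rw [h1, Iso.inv_hom_id_assoc, ← MonoidalCategory.whiskerLeft_comp_assoc, hw, MonObj.mul_one]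
  simp

include hβ hw in
theorem actV_w : (K ◁ v ≫ μ[K]) ≫ (ρ_ K).inv ≫ K ◁ w ≫ (α_ K K N).inv ≫ μ[K] ▷ N =
    𝟙 (K ⊗ N) := by
  have h1 : μ[K] ≫ (ρ_ K).inv ≫ K ◁ w ≫ (α_ K K N).inv ≫ μ[K] ▷ N =
      K ◁ ((ρ_ K).inv ≫ K ◁ w ≫ (α_ K K N).inv ≫ μ[K] ▷ N) ≫ (α_ K K N).inv ≫ μ[K] ▷ N := by
    rw [rightUnitor_inv_naturality_assoc, ← whisker_exchange_assoc,
      associator_inv_naturality_left_assoc, ← comp_whiskerRight, MonObj.mul_assoc]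
    simp
  rw [Category.assoc, h1, ← MonoidalCategory.whiskerLeft_comp_assoc, swap_aux' hβ w v hw,
    MonoidalCategory.whiskerLeft_comp_assoc, associator_inv_naturality_middle_assoc,
    ← comp_whiskerRight, MonObj.mul_one]
  simp

include hβ hw in
theorem isIso_actV : IsIso (K ◁ v ≫ μ[K]) :=
  ⟨_, actV_w hβ w v hw, by simpa using w_actV w v hw⟩

include hβ hw in
theorem height_conv {A L M : C} (s : N ⊗ L ≅ M) (a : A ⟶ K ⊗ L) (b : A ⟶ K ⊗ M)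
    (ha : a = b ≫ K ◁ s.inv ≫ K ◁ (v ▷ L) ≫ (α_ K K L).inv ≫ μ[K] ▷ L) :
    (λ_ A).hom ≫ b = (w ⊗ₘ a) ≫ tensorμ K N K L ≫ (μ[K] ⊗ₘ s.hom) := by
  have h1 := height_aux s w v hw a ((λ_ A).inv ≫ (w ⊗ₘ a) ≫ tensorμ K N K L ≫ (μ[K] ⊗ₘ s.hom))
    (by simp)
  have h2 : K ◁ (v ▷ L) ≫ (α_ K K L).inv ≫ μ[K] ▷ L =
      (α_ K N L).inv ≫ (K ◁ v ≫ μ[K]) ▷ L := by
    rw [associator_inv_naturality_middle_assoc, comp_whiskerRight]
  have h3 := isIso_actV hβ w v hw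
  have h4 : IsIso (K ◁ s.inv ≫ K ◁ (v ▷ L) ≫ (α_ K K L).inv ≫ μ[K] ▷ L) := by
    rw [h2]
    infer_instance
  rw [ha] at h1
  rw [cancel_mono] at h1
  rw [Iso.eq_inv_comp] at h1
  rw [ha]
  exact h1

end

end Vale.Agent.P251.St
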