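import Vale.Agent.P251.St.ToChrom
import Vale.Agent.P251.St.CohConv
import Vale.Agent.P251.Z.OrK
import Vale.Agent.P251.M.LineIso

/-!
# P251, statement layer: the converse of `St/ToChrom.lean`

`isMorava_of_Z`: a Morava `K`-theory in the sense of the library is one in the sense of
`St/Chrom.lean`.

This file does not enter the final statement.
-/

open CategoryTheory MonoidalCategory OnePoint Topology Limits Pretriangulated Matrix MonObj

namespace Vale.Agent.P251.St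

open G G.LC I

/-! ### the predicates on maps -/

theorem isPair_conj' {n : ℕ} {A : Type} [Fintype A] {X : Space} {X' : LC}
    (e : X.carrier ≃ₜ X'.carrier) {P : X'.carrier → Matrix A A ℂ} {v : X'.carrier → A → ℂ}
    {f : Map X (St.Th n A)}
    (h : St.IsPair (fun x : X.carrier => P (e x)) (fun x : X.carrier => v (e x)) f) :
    Z.IsPair P v ((ofHomeo (X := toLC X) (Y := X') e).inv ≫ toHom f ≫ (thIso n A).hom) := by
  intro x
  obtain ⟨y, hy, hP⟩ := h (e.symm x)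
  refine ⟨thHomeo n A y, ?_, ?_, ?_⟩
  · change app (thIso n A).hom (f.toFun ((e.symm x : X.carrier) : OnePoint X.carrier)) = _
    rw [hy]
    rfl
  · have := congrArg Prod.fst hP
    simp only [Homeomorph.apply_symm_apply] at this
    exact this
  · have := congrArg Prod.snd hP
    simp only [Homeomorph.apply_symm_apply] at this
    exact this

/-- the only map `ℂ^n × ℂ^m ⟶ ℂ^(n+m)` -/
theorem toHom_append {n m : ℕ} (g : Map ((Cn n).prod (Cn m)) (Cn (n + m)))
    (hg : ∀ (a : Fin n → ℂ) (b : Fin m → ℂ), g.toFun (Space.pt (X := (Cn n).prod (Cn m)) (a, b)) =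
      Space.pt (X := Cn (n + m)) (Fin.append a b)) : toHom g = (Z.appIso n m).hom := by
  apply LC.hom_ext
  rintro ⟨x, y⟩
  exact (hg x y).trans (Z.isAppend_appIso n m x y).symm

section oriented

variable {T : SHCat} {S : Susp T} {R : RingSp T} (o : Z.Oriented S.toSpaceFunctor R.obj)

/-- the Thom classes of the library -/
noncomputable def rθ (n : ℕ) (A : Type) [Fintype A] :
    S.obj (ofLC (LC.of (G.Th n A))) ⟶ R.obj ⊗ S.obj (Cn n) := o.θ n A

/-- the Thom classes -/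
noncomputable def sθ (n : ℕ) (A : Type) [Fintype A] : Coh S R n (St.Th n A) :=
  S.mapL (thIso n A).hom ≫ rθ o n A

theorem sθ_isom {n : ℕ} {A B : Type} [Fintype A] [Fintype B] [DecidableEq A] (u : Matrix B A ℂ)
    (f : Map (St.Th n A) (St.Th n B)) (hu : uᴴ * u = 1)
    (hf : St.IsPair (fun x : ThSet n A => u * x.1.1 * uᴴ) (fun x : ThSet n A => u *ᵥ x.1.2) f) :
    S.map f ≫ sθ o n B = sθ o n A := by
  have hp : Z.IsPair (X := LC.of (G.Th n A)) (fun x => u * x.P * uᴴ) (fun x => u *ᵥ x.v)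
      ((thIso n A).inv ≫ toHom f ≫ (thIso n B).hom) :=
    isPair_conj' (X := St.Th n A) (X' := LC.of (G.Th n A)) (thHomeo n A)
      (P := fun x : G.Th n A => u * x.P * uᴴ) (v := fun x : G.Th n A => u *ᵥ x.v) hf
  have h := o.isom u hu _ hp
  have hA := Z.Cells.th n A
  have hB := Z.Cells.th n B
  have hA' := (fc_iff _).mp (fc_th n A)
  have hB' := (fc_iff _).mp (fc_th n B)
  have h1 : S.mapL ((thIso n A).inv ≫ toHom f ≫ (thIso n B).hom) ≫ rθ o n B = rθ o n A := h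
  have h2 := congrArg (fun k => S.mapL (thIso n A).hom ≫ k) h1
  rw [← Category.assoc, ← S.mapL_comp hA' hA hB, Iso.hom_inv_id_assoc,
    S.mapL_comp hA' hB' hB, Category.assoc] at h2
  exact h2

theorem sθ_sum {n m : ℕ} {A B : Type} [Fintype A] [Fintype B]
    (f : Map ((St.Th n A).prod (St.Th m B)) (St.Th (n + m) (A ⊕ B)))
    (hf : St.IsPair (fun x : ThSet n A × ThSet m B => fromBlocks x.1.1.1 0 0 x.2.1.1)
      (fun x : ThSet n A × ThSet m B => Sum.elim x.1.1.2 x.2.1.2) f) :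
    IsCross (sθ o n A) (sθ o m B) (S.map f ≫ sθ o (n + m) (A ⊕ B)) := by
  intro g hg
  have hA := Z.Cells.th n A
  have hB := Z.Cells.th m B
  have hC := Z.Cells.th (n + m) (A ⊕ B)
  have hA' := (fc_iff _).mp (fc_th n A)
  have hB' := (fc_iff _).mp (fc_th m B)
  have hC' := (fc_iff _).mp (fc_th (n + m) (A ⊕ B))
  have hp : Z.IsSum (n := n) (m := m) (A := A) (B := B)
      ((ofHomeo (X := toLC ((St.Th n A).prod (St.Th m B)))
          (Y := LC.of (G.Th n A × G.Th m B)) ((thHomeo n A).prodCongr (thHomeo m B))).inv ≫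
        toHom f ≫ (thIso (n + m) (A ⊕ B)).hom) :=
    isPair_conj' (X := (St.Th n A).prod (St.Th m B)) (X' := LC.of (G.Th n A × G.Th m B))
      ((thHomeo n A).prodCongr (thHomeo m B))
      (P := fun x : G.Th n A × G.Th m B => fromBlocks x.1.P 0 0 x.2.P)
      (v := fun x : G.Th n A × G.Th m B => Sum.elim x.1.v x.2.v) hf
  have h := o.sum _ hp (Z.appIso n m) (Z.isAppend_appIso n m)
  have e1 : (ofHomeo (X := toLC ((St.Th n A).prod (St.Th m B)))
      (Y := LC.of (G.Th n A × G.Th m B)) ((thHomeo n A).prodCongr (thHomeo m B))).hom =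
        ((thIso n A).hom ⊗ₘ (thIso m B).hom) := by
    apply tensor_ext (X := toLC (St.Th n A)) (Y := toLC (St.Th m B))
      (Z := LC.of (G.Th n A) ⊗ LC.of (G.Th m B))
    intro x y
    rw [app_tensorHom_smash]
    rfl
  have h1 := (Iso.eq_inv_comp (S.mulIso (Z.thF n A) (Z.thF m B))).mp h
  have h1' : S.mul (ofLC (LC.of (G.Th n A))) (ofLC (LC.of (G.Th m B))) ≫
      S.mapL ((ofHomeo (X := toLC ((St.Th n A).prod (St.Th m B)))
          (Y := LC.of (G.Th n A × G.Th m B)) ((thHomeo n A).prodCongr (thHomeo m B))).inv ≫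
        toHom f ≫ (thIso (n + m) (A ⊕ B)).hom) ≫ rθ o (n + m) (A ⊕ B) =
      (rθ o n A ⊗ₘ rθ o m B) ≫ tensorμ R.obj (S.obj (Cn n)) R.obj (S.obj (Cn m)) ≫
        (μ[R.obj] ⊗ₘ (S.mul (Cn n) (Cn m) ≫ S.mapL (Z.appIso n m).hom)) := h1
  have h2 := congrArg (fun k => (S.mapL (thIso n A).hom ⊗ₘ S.mapL (thIso m B).hom) ≫ k) h1'
  rw [← Category.assoc, ← mul_mapL hA' hB' hA hB, Category.assoc, ← Category.assoc (S.mapL _),
    ← S.mapL_comp (fc_tensor hA' hB') (fc_tensor hA hB) hC, ← e1, Iso.hom_inv_id_assoc,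
    S.mapL_comp (fc_tensor hA' hB') hC' hC, Category.assoc,
    MonoidalCategory.tensorHom_comp_tensorHom_assoc] at h2
  have hg' : toHom g = (Z.appIso n m).hom := toHom_append g hg
  rw [← hg'] at h2
  exact h2

theorem sθ_fibre (n : ℕ) (f : Map (Cn n) (St.Th n (Fin n)))
    (hf : St.IsPair (fun _ => 1) (fun x => x) f) :
    SHCat.comp (SHCat.leftUnit (S.obj (Cn n))) (SHCat.comp (S.map f) (sθ o n (Fin n))) =
      SHCat.tenHom R.unit (SHCat.ident (S.obj (Cn n))) := by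
  have hp : Z.IsPair (X := Z.Cn n) (fun _ => 1) (fun x => x)
      (toHom f ≫ (thIso n (Fin n)).hom) := by
    have := isPair_conj' (X := Cn n) (X' := Z.Cn n) (Homeomorph.refl _)
      (P := fun _ => 1) (v := fun x => x) hf
    intro x
    exact this x
  have h := o.fibre n _ hp
  have h1 : S.mapL (toHom f ≫ (thIso n (Fin n)).hom) ≫ rθ o n (Fin n) =
      (λ_ (S.obj (Cn n))).inv ≫ η[R.obj] ▷ S.obj (Cn n) := h
  rw [S.mapL_comp (Z.Cells.cn n) ((fc_iff _).mp (fc_th n (Fin n))) (Z.Cells.th n (Fin n)),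
    Category.assoc, Iso.eq_inv_comp] at h1
  refine Eq.trans h1 ?_
  rw [← MonoidalCategory.tensorHom_id]

/-- The orientation in the form of `St/Chrom.lean`. -/
noncomputable def sOriented : St.Oriented S R where
  θ n A := sθ o n A
  isom u f hu hf := sθ_isom o u f hu hf
  sum f hf := sθ_sum o f hf
  fibre n f hf := sθ_fibre o n f hf

end oriented

/-! ### Morava K-theories -/

section swap

universe v u

variable {T : Type u} [Category.{v} T] [Preadditive T] [HasZeroObject T]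
    [HasShift T ℤ] [∀ n : ℤ, (shiftFunctor T n).Additive] [Pretriangulated T]
    [MonoidalCategory T] [SymmetricCategory T] [Vale.Agent.P251.T.TensorTriangulated T]

/-- The swap of even spheres is the identity. -/
theorem braiding_SC (F : SpaceFunctor T) (n : ℕ) :
    (β_ (Z.SC F n) (Z.SC F n)).hom = 𝟙 (Z.SC F n ⊗ Z.SC F n) := by
  let E := M.stdEven T
  let e := M.lineIso F
  have h1 : (β_ (E.S n) (E.S n)).hom = 𝟙 (E.S n ⊗ E.S n) := by
    have h2 := E.mu_comm n n (n + n : ℤ) rfl rfl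
    rw [← cancel_mono (E.mu n n (n + n : ℤ) rfl).hom, h2, Category.id_comp]
  have h3 : (β_ (Z.SC F n) (Z.SC F n)).hom ≫ (Z.sph e n ⊗ₘ Z.sph e n) =
      (Z.sph e n ⊗ₘ Z.sph e n) ≫ (β_ (E.S n) (E.S n)).hom :=
    (BraidedCategory.braiding_naturality _ _).symm
  rw [h1, Category.comp_id] at h3
  rw [← cancel_mono (Z.sph e n ⊗ₘ Z.sph e n), h3, Category.id_comp]

end swap

section morava

variable {T : SHCat} (S : Susp T) (R : RingSp T)

/-- the identification `S^(2N) ⊗ S^2 ≅ S^(2N+2)` -/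
noncomputable def scA (N : ℕ) : S.obj (Cn N) ⊗ S.obj (Cn 1) ≅ S.obj (Cn (N + 1)) :=
  Z.SCadd S.toSpaceFunctor (Z.appIso N 1)

/-- multiplication by `v` -/
noncomputable def mB {N : ℕ} (v : S.obj (Cn N) ⟶ R.obj) :
    R.obj ⊗ S.obj (Cn (N + 1)) ⟶ R.obj ⊗ S.obj (Cn 1) :=
  R.obj ◁ (scA S N).inv ≫
    R.obj ◁ (v ▷ S.obj (Cn 1)) ≫ (α_ R.obj R.obj (S.obj (Cn 1))).inv ≫ μ[R.obj] ▷ S.obj (Cn 1)

theorem hasPSeries_of {p N : ℕ} (o : Z.Oriented S.toSpaceFunctor R.obj)
    (h : ∃ (v : Z.SC S.toSpaceFunctor N ⟶ R.obj) (w : 𝟙_ T.C ⟶ R.obj ⊗ Z.SC S.toSpaceFunctor N),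
      w ≫ R.obj ◁ v ≫ μ[R.obj] = η[R.obj] ∧
      ∀ (g : Z.Cn N ⊗ Z.Cn 1 ≅ Z.Cn (N + 1)) (_ : Z.IsAppend g)
        (t : LC.of (Gr 1 (Fin (N + 2))) ⟶ LC.of (G.Th 1 (Fin p → Fin (N + 2))))
        (_ : Z.IsTensorPower p t)
        (e : LC.of (Gr 1 (Fin (N + 2))) ⟶ LC.of (G.Th (N + 1) (Fin (N + 1) × Fin (N + 2))))
        (_ : Z.IsMultiple (N + 1) e),
        Z.sus S.toSpaceFunctor (X := Z.grF 1 (Fin (N + 2))) (Y := Z.thF 1 (Fin p → Fin (N + 2))) t ≫
            o.θ 1 _ =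
          Z.sus S.toSpaceFunctor (X := Z.grF 1 (Fin (N + 2)))
              (Y := Z.thF (N + 1) (Fin (N + 1) × Fin (N + 2))) e ≫
            o.θ (N + 1) _ ≫ Z.mulBy S.toSpaceFunctor v g) :
    HasPSeries S R p N (sOriented o) := by
  obtain ⟨v, w, hvw, h⟩ : ∃ (v : S.obj (Cn N) ⟶ R.obj) (w : 𝟙_ T.C ⟶ R.obj ⊗ S.obj (Cn N)),
      w ≫ R.obj ◁ v ≫ μ[R.obj] = η[R.obj] ∧
      ∀ (t : LC.of (Gr 1 (Fin (N + 2))) ⟶ LC.of (G.Th 1 (Fin p → Fin (N + 2))))
        (_ : Z.IsTensorPower p t)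
        (e : LC.of (Gr 1 (Fin (N + 2))) ⟶ LC.of (G.Th (N + 1) (Fin (N + 1) × Fin (N + 2))))
        (_ : Z.IsMultiple (N + 1) e),
        S.mapL t ≫ rθ o 1 _ = S.mapL e ≫ rθ o (N + 1) _ ≫ mB S R v := by
    obtain ⟨v, w, hvw, h⟩ := h
    exact ⟨v, w, hvw, fun t ht e he => h (Z.appIso N 1) (Z.isAppend_appIso N 1) t ht e he⟩
  have hu : IsIso S.unit := S.unit_isIso
  refine ⟨v, inv S.unit ≫ w, ?_, ?_⟩
  · change S.unit ≫ (inv S.unit ≫ w) ≫ (𝟙 R.obj ⊗ₘ v) ≫ μ[R.obj] = η[R.obj]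
    rw [Category.assoc, IsIso.hom_inv_id_assoc, MonoidalCategory.id_tensorHom]
    exact hvw
  · intro e t q he ht hq g hg
    have hG := Z.Cells.gr 1 (Fin (N + 2))
    have hG' := (fc_iff _).mp (fc_cp (Fin (N + 2)))
    have hE := Z.Cells.th (N + 1) (Fin (N + 1) × Fin (N + 2))
    have hE' := (fc_iff _).mp (fc_th (N + 1) (Fin (N + 1) × Fin (N + 2)))
    have hT := Z.Cells.th 1 (Fin p → Fin (N + 2))
    have hT' := (fc_iff _).mp (fc_th 1 (Fin p → Fin (N + 2)))
    have he' : Z.IsMultiple (N + 1) ((cpIso (Fin (N + 2))).inv ≫ toHom e ≫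
        (thIso (N + 1) (Fin (N + 1) × Fin (N + 2))).hom) :=
      isPair_conj' (X := CP (Fin (N + 2))) (X' := LC.of (Gr 1 (Fin (N + 2))))
        (cpHomeo (Fin (N + 2)))
        (P := fun (x : Gr 1 (Fin (N + 2))) (i j : Fin (N + 1) × Fin (N + 2)) =>
          if i.1 = j.1 then x.P i.2 j.2 else 0) (v := fun _ => 0) he
    have ht' : Z.IsTensorPower p ((cpIso (Fin (N + 2))).inv ≫ toHom t ≫
        (thIso 1 (Fin p → Fin (N + 2))).hom) :=
      isPair_conj' (X := CP (Fin (N + 2))) (X' := LC.of (Gr 1 (Fin (N + 2))))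
        (cpHomeo (Fin (N + 2)))
        (P := fun (x : Gr 1 (Fin (N + 2))) (i j : Fin p → Fin (N + 2)) =>
          ∏ k, x.P (i k) (j k)) (v := fun _ => 0) ht
    have h1 := h _ ht' _ he'
    have h2 : S.mapL ((cpIso (Fin (N + 2))).inv ≫ toHom t ≫
        (thIso 1 (Fin p → Fin (N + 2))).hom) ≫ rθ o 1 _ =
        S.mapL ((cpIso (Fin (N + 2))).inv ≫ toHom e ≫
          (thIso (N + 1) (Fin (N + 1) × Fin (N + 2))).hom) ≫ rθ o (N + 1) _ ≫
          mB S R v := h1
    have h3 := congrArg (fun k => S.mapL (cpIso (Fin (N + 2))).hom ≫ k) h2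
    rw [← Category.assoc, ← S.mapL_comp hG' hG hT, Iso.hom_inv_id_assoc,
      S.mapL_comp hG' hT' hT, Category.assoc, ← Category.assoc (S.mapL (cpIso _).hom),
      ← S.mapL_comp hG' hG hE, Iso.hom_inv_id_assoc, S.mapL_comp hG' hE' hE,
      Category.assoc] at h3
    have h4' : S.mapL (toHom t) ≫ S.mapL (thIso 1 (Fin p → Fin (N + 2))).hom ≫ rθ o 1 _ =
        (S.mapL (toHom e) ≫ S.mapL (thIso (N + 1) (Fin (N + 1) × Fin (N + 2))).hom ≫
          rθ o (N + 1) _) ≫ mB S R v := by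
      simpa only [Category.assoc] using h3
    have h4 : S.map t ≫ sθ o 1 _ = (S.map e ≫ sθ o (N + 1) _) ≫ mB S R v := h4'
    have h5 := height_conv (K := R.obj) (N := S.obj (Cn N)) (L := S.obj (Cn 1))
      (M := S.obj (Cn (N + 1))) (braiding_SC S.toSpaceFunctor N) w v hvw
      (scA S N) _ _ h4
    have h6 := S.mul_unit (X := CP (Fin (N + 2))) q (fc_cp _) (fun x => by
      induction x using OnePoint.rec with
      | infty => exact q.map_infty
      | coe x => exact hq x)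
    have h7 : (S.unit ⊗ₘ 𝟙 (S.obj (CP (Fin (N + 2))))) ≫ S.mul Pn (CP (Fin (N + 2))) ≫ S.map q =
        (λ_ (S.obj (CP (Fin (N + 2))))).hom := h6
    have hg' : toHom g = (Z.appIso N 1).hom := toHom_append g hg
    have h8 : S.mul Pn (CP (Fin (N + 2))) ≫ S.map q ≫ S.map e ≫ sθ o (N + 1) _ =
        ((inv S.unit ≫ w) ⊗ₘ (S.map t ≫ sθ o 1 _)) ≫
          tensorμ R.obj (S.obj (Cn N)) R.obj (S.obj (Cn 1)) ≫
            (μ[R.obj] ⊗ₘ (scA S N).hom) := by
      refine (cancel_epi (S.unit ⊗ₘ 𝟙 (S.obj (CP (Fin (N + 2)))))).mp ?_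
      refine Eq.trans (b := (λ_ (S.obj (CP (Fin (N + 2))))).hom ≫ S.map e ≫ sθ o (N + 1) _) ?_ ?_
      · rw [← h7]
        simp only [Category.assoc]
      · rw [h5, MonoidalCategory.tensorHom_comp_tensorHom_assoc, IsIso.hom_inv_id_assoc,
          Category.id_comp]
    have h9 : (scA S N).hom =
        S.mul (Cn N) (Cn 1) ≫ S.map g := by
      change S.mul (Cn N) (Cn 1) ≫ S.mapL (Z.appIso N 1).hom = _
      rw [← hg']
      rfl
    rw [h9] at h8
    exact h8

/-- Morava K-theories in the sense of the library are Morava K-theories in the sense of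
`St/Chrom.lean`. -/
theorem isMorava_of_Z {p n : ℕ} (hp : p ≠ 0) (h : Z.IsMorava S.toSpaceFunctor p n R.obj) :
    St.IsMorava S R p n := by
  cases n with
  | zero =>
    have h' : Z.IsRational R.obj := h
    have : St.IsRational R := ⟨fun k f hk => h'.conc k hk f, h'.ne, fun m hm => h'.div m hm,
      fun f => h'.gen f⟩
    simpa [St.IsMorava] using this
  | succ n =>
    obtain ⟨_, o, ho⟩ := h
    have h1 : IsPeriodicField R p (2 * ((p : ℤ) ^ (n + 1) - 1)) :=
      ⟨fun k f hk => ho.sparse k hk f, ho.char, ho.ne, fun f => ho.gen f⟩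
    have h2 : 0 < p ^ (n + 1) := Nat.pos_of_ne_zero (pow_ne_zero _ hp)
    have h3 : HasPSeries S R p (p ^ (n + 1) - 1) (sOriented o) :=
      hasPSeries_of S R o (ho.height _ (by omega))
    have : IsPeriodicField R p (2 * ((p : ℤ) ^ (n + 1) - 1)) ∧
        ∃ o : St.Oriented S R, HasPSeries S R p (p ^ (n + 1) - 1) o := ⟨h1, _, h3⟩
    simpa [St.IsMorava] using this

end morava

end Vale.Agent.P251.St
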