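import Vale.Agent.P251.St.ClassE
import Vale.Agent.P251.St.OfChrom

/-!
# P251: the final statement with the existence of Morava K-theories, assembled from its parts

`statement2_of`: the final statement, from `Z.NoRetraction F 5 5` and the existence of Morava
K-theories in the sense of the library.
-/

open CategoryTheory MonoidalCategory Limits MonObj

namespace Vale.Agent.P251.St

open SHCat

/-- Morava K-theories in the sense of `St/Chrom.lean` from those of the library. -/
theorem exists_morava (p : ℕ) (hp : p ≠ 0) (T : SHCat) (S : Susp T)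
    (hK : ∀ n : ℕ, ∃ (K : T.C) (_ : MonObj K) (_ : IsCommMonObj K),
      Z.IsMorava S.toSpaceFunctor p n K) :
    ∃ K : ℕ → RingSp T, ∀ n, IsMorava S (K n) p n := by
  choose K m c hK using hK
  exact ⟨fun n => @RingSp.mk T (K n) (m n) (c n), fun n =>
    @isMorava_of_Z T S (@RingSp.mk T (K n) (m n) (c n)) p n hp (hK n)⟩

/-- The final statement from its version in the language of the library. -/
theorem statement2_of
    (hN : ∀ (T : SHCat) (F : I.SpaceFunctor T.C), Z.NoRetraction F 5 5)
    (hK : ∀ (T : SHCat) (F : I.SpaceFunctor T.C) (n : ℕ),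
      ∃ (K : T.C) (_ : MonObj K) (_ : IsCommMonObj K), Z.IsMorava F 5 n K) :
    (∃ T : SHCat, Nonempty (Susp T)) ∧ ∀ (T : SHCat) (S : Susp T),
      (∀ E X : T.C, ∃ (Y : T.C) (f : Hom X Y), IsLoc E f) ∧
      (∃ K : ℕ → RingSp T, (∀ i, IsMorava S (K i) 5 i) ∧ ∃ E : T.C, IsClassE 5 K E) ∧
      NoRetraction S 5 5 := by
  refine ⟨nonempty_susp, fun T S => ⟨exists_isLoc T, ?_,
    noRetraction_of S (hN T S.toSpaceFunctor)⟩⟩
  obtain ⟨K, h⟩ := exists_morava 5 (by norm_num) T S (hK T S.toSpaceFunctor)
  exact ⟨K, h, exists_classE 5 K⟩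

end Vale.Agent.P251.St
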