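import Mathlib.Topology.Compactification.OnePoint.Basic
import Mathlib.Topology.UnitInterval
import Mathlib.Analysis.SpecialFunctions.Log.Basic
import Vale.Agent.P251.T.Axioms

/-!
# P251, statement layer: finite cell spaces and the stable homotopy category

This file and `St/Chrom.lean` contain the definitions which enter the final statement (they import
only Mathlib and `T/Axioms.lean`).

* `Space` : locally compact Hausdorff spaces; `X` stands for the pointed compact space `X⁺`
  (its one-point compactification).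
* `Map X Y` : pointed continuous maps `X⁺ → Y⁺`.
* `FC` : the finite cell spaces.
* `SHCat` : abstract stable homotopy categories.
* `Susp T` : a suspension spectrum functor from finite cell spaces to `T`.
-/

open CategoryTheory MonoidalCategory Limits Pretriangulated OnePoint

namespace Vale.Agent.P251.St

/-! ### Spaces -/

/-- A locally compact Hausdorff space. -/
structure Space where
  /-- the underlying type -/
  carrier : Type
  [top : TopologicalSpace carrier]
  [lc : LocallyCompactSpace carrier]
  [t2 : T2Space carrier]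

attribute [instance] Space.top Space.lc Space.t2

/-- The points of the one-point compactification `X⁺`. -/
abbrev Space.Pt (X : Space) : Type := OnePoint X.carrier

/-- A point of `X` as a point of `X⁺`. -/
abbrev Space.pt {X : Space} (x : X.carrier) : X.Pt := OnePoint.some x

/-- A pointed continuous map `X⁺ → Y⁺` of one-point compactifications. -/
structure Map (X Y : Space) where
  /-- the underlying function -/
  toFun : X.Pt → Y.Pt
  cont : Continuous toFun
  map_infty : toFun ∞ = ∞

/-- The product of two spaces: `(X × Y)⁺` is the smash product of `X⁺` and `Y⁺`. -/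
abbrev Space.prod (X Y : Space) : Space := ⟨X.carrier × Y.carrier⟩

/-- the canonical map `X⁺ × Y⁺ → (X × Y)⁺` -/
def smash {X Y : Space} (x : X.Pt) (y : Y.Pt) : (X.prod Y).Pt :=
  x.elim ∞ (fun x => y.elim ∞ (fun y => Space.pt (X := X.prod Y) (x, y)))

/-- The empty space. -/
abbrev Em : Space := ⟨Empty⟩

/-- The point. -/
abbrev Pn : Space := ⟨Unit⟩

/-- The line `ℝ` (`ℝ⁺` is the circle). -/
abbrev Rr : Space := ⟨ℝ⟩

/-- The half line `[0, ∞)`. -/
abbrev Hh : Space := ⟨NNReal⟩

/-- The space `ℝⁿ` (`(ℝⁿ)⁺` is the sphere of dimension `n`). -/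
abbrev Rn (n : ℕ) : Space := ⟨Fin n → ℝ⟩

/-- `H` is a homotopy through pointed maps. -/
def IsHtpy {X Y : Space} (H : unitInterval → X.Pt → Y.Pt) : Prop :=
  Continuous (Function.uncurry H) ∧ ∀ t, H t ∞ = ∞

/-- Homotopic maps. -/
def Homotopic {X Y : Space} (f g : X.Pt → Y.Pt) : Prop :=
  ∃ H : unitInterval → X.Pt → Y.Pt, IsHtpy H ∧ H 0 = f ∧ H 1 = g

/-- `X⁺` and `Y⁺` are homotopy equivalent. -/
def HEquiv (X Y : Space) : Prop :=
  ∃ (f : Map X Y) (g : Map Y X), Homotopic (g.toFun ∘ f.toFun) id ∧
    Homotopic (f.toFun ∘ g.toFun) id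

/-- `i` is a cofibration: the homotopy extension property. -/
def Cofib {A B : Space} (i : Map A B) : Prop :=
  ∀ (Z : Space) (f : Map B Z) (H : unitInterval → A.Pt → Z.Pt), IsHtpy H →
    H 0 = f.toFun ∘ i.toFun → ∃ K : unitInterval → B.Pt → Z.Pt,
      IsHtpy K ∧ K 0 = f.toFun ∧ ∀ t, K t ∘ i.toFun = H t

/-- `q : B⁺ → C⁺` is the quotient map by the image of `i : A⁺ → B⁺`. -/
def IsQuot {A B C : Space} (i : Map A B) (q : Map B C) : Prop :=
  Function.Surjective q.toFun ∧ ∀ b b', q.toFun b = q.toFun b' ↔
    b = b' ∨ (b ∈ Set.range i.toFun ∧ b' ∈ Set.range i.toFun)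

/-- Finite cell spaces: the smallest class of spaces which contains the empty space and all `ℝⁿ`,
and is closed under homotopy equivalence and under extensions along cofibrations. -/
inductive FC : Space → Prop
  | empty : FC Em
  | sph (n : ℕ) : FC (Rn n)
  | hequiv {X Y : Space} : FC X → HEquiv X Y → FC Y
  | ext {A B C : Space} {i : Map A B} {q : Map B C} :
      Cofib i → IsQuot i q → FC A → FC C → FC B

/-- `C⁺` is the mapping cone of `f : X⁺ → Y⁺`, that is, the pushout `Y⁺ ∪ (X × [0, ∞))⁺` in which
`(x, 0)` is identified with `f x`, and `d : C⁺ → (X × ℝ)⁺` is the collapse of `Y⁺`, where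
`(0, ∞)` is identified with `ℝ` by the logarithm. -/
structure IsCone {X Y C : Space} (f : Map X Y) (j : Map Y C) (k : Map (X.prod Hh) C)
    (d : Map C (X.prod Rr)) : Prop where
  glue : ∀ x, k.toFun (smash x (Space.pt (X := Hh) 0)) = j.toFun (f.toFun x)
  pushout : ∀ (Z : Space) (u : Map Y Z) (v : Map (X.prod Hh) Z),
    (∀ x, v.toFun (smash x (Space.pt (X := Hh) 0)) = u.toFun (f.toFun x)) →
    ∃! w : Map C Z, w.toFun ∘ j.toFun = u.toFun ∧ w.toFun ∘ k.toFun = v.toFun
  collapse : ∀ y, d.toFun (j.toFun y) = ∞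
  interior : ∀ x (t : NNReal), 0 < t →
    d.toFun (k.toFun (smash x (Space.pt (X := Hh) t))) =
      smash x (Space.pt (X := Rr) (Real.log t))

/-! ### Stable homotopy categories -/

/-- An abstract stable homotopy category. -/
structure SHCat where
  /-- the objects (spectra) -/
  C : Type 1
  [cat : Category.{0} C]
  [preadditive : Preadditive C]
  [zero : HasZeroObject C]
  [shift : HasShift C ℤ]
  [additive : ∀ n : ℤ, (shiftFunctor C n).Additive]
  [pretriangulated : Pretriangulated C]
  [triangulated : IsTriangulated C]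
  [monoidal : MonoidalCategory C]
  [symmetric : SymmetricCategory C]
  [tensor : T.TensorTriangulated C]
  [closed : MonoidalClosed C]
  [coproducts : HasCoproducts.{0} C]
  [products : HasProducts.{0} C]
  [stable : T.StableCat C]

namespace SHCat

attribute [instance] SHCat.cat SHCat.preadditive SHCat.zero SHCat.shift SHCat.additive
  SHCat.pretriangulated SHCat.triangulated SHCat.monoidal SHCat.symmetric SHCat.tensor
  SHCat.closed SHCat.coproducts SHCat.products SHCat.stable

variable {T : SHCat}

/-- the morphisms `A ⟶ B` of `T` -/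
abbrev Hom (A B : T.C) : Type := A ⟶ B

/-- the identity -/
abbrev ident (A : T.C) : Hom A A := 𝟙 A

/-- the composition, in diagrammatic order -/
abbrev comp {A B C : T.C} (f : Hom A B) (g : Hom B C) : Hom A C := f ≫ g

/-- the unit (the sphere spectrum) -/
abbrev one (T : SHCat) : T.C := 𝟙_ T.C

/-- the tensor product (smash product of spectra) -/
abbrev ten (A B : T.C) : T.C := A ⊗ B

/-- the tensor product of two morphisms -/
abbrev tenHom {A B A' B' : T.C} (f : Hom A A') (g : Hom B B') : Hom (ten A B) (ten A' B') := f ⊗ₘ g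

/-- the associativity `(A ⊗ B) ⊗ D ⟶ A ⊗ (B ⊗ D)` -/
abbrev assoc (A B D : T.C) : Hom (ten (ten A B) D) (ten A (ten B D)) := (α_ A B D).hom

/-- the left unit `𝟙 ⊗ A ⟶ A` -/
abbrev leftUnit (A : T.C) : Hom (ten T.one A) A := (λ_ A).hom

/-- the symmetry `A ⊗ B ⟶ B ⊗ A` -/
abbrev symm (A B : T.C) : Hom (ten A B) (ten B A) := (β_ A B).hom

/-- the suspension -/
abbrev sus (A : T.C) : T.C := A⟦(1 : ℤ)⟧

/-- the canonical map `A ⊗ Σ 𝟙 ⟶ Σ A` -/
abbrev tenSus (A : T.C) : Hom (ten A (sus T.one)) (sus A) := (T.tensor.e A).hom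

/-- `A ⟶ B ⟶ D ⟶ Σ A` is a distinguished triangle -/
abbrev Dist {A B D : T.C} (f : Hom A B) (g : Hom B D) (h : Hom D (sus A)) : Prop :=
  Triangle.mk f g h ∈ distTriang T.C

end SHCat

open SHCat

/-- The data of a suspension spectrum functor `X ↦ Σ^∞ X⁺`. -/
structure SuspData (T : SHCat) where
  /-- the suspension spectrum of `X⁺` -/
  obj : Space → T.C
  /-- functoriality -/
  map : ∀ {X Y : Space}, Map X Y → Hom (obj X) (obj Y)
  /-- the map `Σ^∞ X⁺ ⊗ Σ^∞ Y⁺ ⟶ Σ^∞ (X⁺ ∧ Y⁺)` -/
  mul : ∀ X Y : Space, Hom (ten (obj X) (obj Y)) (obj (X.prod Y))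
  /-- the map from the unit to `Σ^∞` of the point -/
  unit : Hom T.one (obj Pn)
  /-- the map from `Σ^∞` of the circle to the suspension of the unit -/
  line : Hom (obj Rr) (sus T.one)

/-- A suspension spectrum functor `X ↦ Σ^∞ X⁺` from finite cell spaces to `T`. (It is defined on
all spaces, but the axioms are restricted to finite cell spaces.) -/
structure Susp (T : SHCat) extends SuspData T where
  map_id : ∀ {X : Space} (f : Map X X), FC X → f.toFun = id → map f = ident (obj X)
  map_comp : ∀ {X Y Z : Space} (f : Map X Y) (g : Map Y Z) (h : Map X Z), FC X → FC Y → FC Z →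
    h.toFun = g.toFun ∘ f.toFun → map h = comp (map f) (map g)
  map_homotopic : ∀ {X Y : Space} (f g : Map X Y), FC X → FC Y → Homotopic f.toFun g.toFun →
    map f = map g
  isZero : ∀ {X : Space}, FC X → IsEmpty X.carrier → ident (obj X) = 0
  unit_isIso : IsIso unit
  line_isIso : IsIso line
  mul_isIso : ∀ {X Y : Space}, FC X → FC Y → IsIso (mul X Y)
  mul_natural : ∀ {X X' Y Y' : Space} (f : Map X X') (g : Map Y Y')
    (h : Map (X.prod Y) (X'.prod Y')), FC X → FC X' → FC Y → FC Y' →
    (∀ x y, h.toFun (smash x y) = smash (f.toFun x) (g.toFun y)) →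
    comp (mul X Y) (map h) = comp (tenHom (map f) (map g)) (mul X' Y')
  mul_assoc : ∀ {X Y Z : Space} (a : Map ((X.prod Y).prod Z) (X.prod (Y.prod Z))),
    FC X → FC Y → FC Z →
    (∀ (x : X.Pt) (y : Y.Pt) (z : Z.Pt),
      a.toFun (smash (smash x y) z) = smash x (smash y z)) →
    comp (tenHom (mul X Y) (ident (obj Z))) (comp (mul (X.prod Y) Z) (map a)) =
      comp (assoc (obj X) (obj Y) (obj Z))
        (comp (tenHom (ident (obj X)) (mul Y Z)) (mul X (Y.prod Z)))
  mul_unit : ∀ {X : Space} (a : Map (Pn.prod X) X), FC X →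
    (∀ x, a.toFun (smash (Space.pt (X := Pn) ()) x) = x) →
    comp (tenHom unit (ident (obj X))) (comp (mul Pn X) (map a)) = leftUnit (obj X)
  mul_comm : ∀ {X Y : Space} (a : Map (X.prod Y) (Y.prod X)), FC X → FC Y →
    (∀ x y, a.toFun (smash x y) = smash y x) →
    comp (mul X Y) (map a) = comp (symm (obj X) (obj Y)) (mul Y X)
  /-- mapping cones go to distinguished triangles -/
  cone : ∀ {X Y C : Space} (f : Map X Y) (j : Map Y C) (k : Map (X.prod Hh) C)
    (d : Map C (X.prod Rr)) (δ : Hom (obj C) (ten (obj X) (obj Rr))), FC X → FC Y → FC C →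
    IsCone f j k d → comp δ (mul X Rr) = map d →
    Dist (map f) (map j) (comp δ (comp (tenHom (ident (obj X)) line) (tenSus (obj X))))
  /-- every morphism between suspension spectra is stably induced by a pointed map -/
  full : ∀ {X Y : Space} (g : Hom (obj X) (obj Y)), FC X → FC Y →
    ∃ (n : ℕ) (h : Map (X.prod (Rn n)) (Y.prod (Rn n))),
      comp (mul X (Rn n)) (map h) = comp (tenHom g (ident (obj (Rn n)))) (mul Y (Rn n))
  /-- pointed maps which induce the same morphism are stably homotopic -/
  faithful : ∀ {X Y : Space} (f g : Map X Y), FC X → FC Y → map f = map g →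
    ∃ (n : ℕ) (f' g' : Map (X.prod (Rn n)) (Y.prod (Rn n))),
      (∀ x y, f'.toFun (smash x y) = smash (f.toFun x) y) ∧
      (∀ x y, g'.toFun (smash x y) = smash (g.toFun x) y) ∧ Homotopic f'.toFun g'.toFun

end Vale.Agent.P251.St
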