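import Mathlib.CategoryTheory.Monoidal.CommMon_

/-!
# P251, statement layer: monoidal lemmas for the comparison of the two forms of the height axiom
-/

open CategoryTheory MonoidalCategory MonObj

universe v u

namespace Vale.Agent.P251.St

variable {C : Type u} [Category.{v} C] [MonoidalCategory C] [SymmetricCategory C]

omit [SymmetricCategory C] in
theorem mul_act_eq (K X : C) [MonObj K] :
    (μ[K] ⊗ₘ 𝟙 (K ⊗ X)) ≫ (α_ K K X).inv ≫ μ[K] ▷ X =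
      (α_ (K ⊗ K) K X).inv ≫ ((μ[K] ▷ K) ≫ μ[K]) ▷ X := by
  rw [comp_whiskerRight, MonoidalCategory.tensorHom_id, associator_inv_naturality_left_assoc]

theorem mul_assoc_swap (K : C) [MonObj K] [IsCommMonObj K] :
    ((α_ K K K).hom ≫ K ◁ (β_ K K).hom ≫ (α_ K K K).inv) ≫ (μ[K] ▷ K) ≫ μ[K] =
      (μ[K] ▷ K) ≫ μ[K] := by
  rw [MonObj.mul_assoc]
  simp only [Category.assoc, Iso.inv_hom_id_assoc]
  rw [← MonoidalCategory.whiskerLeft_comp_assoc, IsCommMonObj.mul_comm]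

/-- `(k₁ k₃) k₂ x = (k₁ k₂) k₃ x` -/
theorem tensorμ_mul_act (K X : C) [MonObj K] [IsCommMonObj K] :
    tensorμ K K K X ≫ (μ[K] ⊗ₘ 𝟙 (K ⊗ X)) ≫ (α_ K K X).inv ≫ μ[K] ▷ X =
      (μ[K] ⊗ₘ 𝟙 (K ⊗ X)) ≫ (α_ K K X).inv ≫ μ[K] ▷ X := by
  have h2 : tensorμ K K K X ≫ (α_ (K ⊗ K) K X).inv =
      (α_ (K ⊗ K) K X).inv ≫ ((α_ K K K).hom ≫ K ◁ (β_ K K).hom ≫ (α_ K K K).inv) ▷ X := by
    simp [tensorμ]
  rw [mul_act_eq, ← Category.assoc, h2, Category.assoc, ← comp_whiskerRight, mul_assoc_swap]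

theorem height_aux {K A N L M : C} [MonObj K] [IsCommMonObj K] (s : N ⊗ L ≅ M)
    (w : 𝟙_ C ⟶ K ⊗ N) (v : N ⟶ K) (hw : w ≫ K ◁ v ≫ μ[K] = η[K]) (a : A ⟶ K ⊗ L)
    (b : A ⟶ K ⊗ M)
    (hb : (λ_ A).hom ≫ b = (w ⊗ₘ a) ≫ tensorμ K N K L ≫ (μ[K] ⊗ₘ s.hom)) :
    a = b ≫ K ◁ s.inv ≫ K ◁ (v ▷ L) ≫ (α_ K K L).inv ≫ μ[K] ▷ L := by
  have h1 : (μ[K] ⊗ₘ s.hom) ≫ K ◁ s.inv ≫ K ◁ (v ▷ L) =
      (𝟙 (K ⊗ K) ⊗ₘ (v ⊗ₘ 𝟙 L)) ≫ (μ[K] ⊗ₘ 𝟙 (K ⊗ L)) := by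
    rw [← MonoidalCategory.id_tensorHom, ← MonoidalCategory.id_tensorHom,
      MonoidalCategory.tensorHom_comp_tensorHom, MonoidalCategory.tensorHom_comp_tensorHom,
      MonoidalCategory.tensorHom_comp_tensorHom, ← MonoidalCategory.tensorHom_id]
    simp
  have h2 : tensorμ K N K L ≫ (𝟙 (K ⊗ K) ⊗ₘ (v ⊗ₘ 𝟙 L)) =
      ((𝟙 K ⊗ₘ v) ⊗ₘ 𝟙 (K ⊗ L)) ≫ tensorμ K K K L := by
    have := tensorμ_natural (𝟙 K) v (𝟙 K) (𝟙 L)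
    simpa using this.symm
  rw [← cancel_epi (λ_ A).hom, ← Category.assoc (λ_ A).hom, hb]
  simp only [Category.assoc]
  have h3 := congrArg (fun k => (w ⊗ₘ a) ≫ tensorμ K N K L ≫ k ≫ (α_ K K L).inv ≫ μ[K] ▷ L) h1
  simp only [Category.assoc] at h3
  rw [h3, ← Category.assoc (tensorμ K N K L), h2, Category.assoc, tensorμ_mul_act,
    MonoidalCategory.tensorHom_comp_tensorHom_assoc,
    MonoidalCategory.tensorHom_comp_tensorHom_assoc, Category.comp_id, Category.comp_id,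
    MonoidalCategory.id_tensorHom, Category.assoc, hw, MonoidalCategory.tensorHom_def']
  simp only [Category.assoc]
  rw [associator_inv_naturality_left_assoc, ← comp_whiskerRight, MonObj.one_mul]
  simp

theorem height_final {K P Q A A' N L M : C} [MonObj K] [IsCommMonObj K] (u : 𝟙_ C ⟶ P)
    (m : P ⊗ A ⟶ Q) (q : Q ⟶ A) (hq : (u ⊗ₘ 𝟙 A) ≫ m ≫ q = (λ_ A).hom) (s : N ⊗ L ≅ M)
    (w : P ⟶ K ⊗ N) (v : N ⟶ K) (hw : (u ≫ w) ≫ K ◁ v ≫ μ[K] = η[K]) (a : A ⟶ K ⊗ L)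
    (b : A ⟶ K ⊗ M) (hc : m ≫ q ≫ b = (w ⊗ₘ a) ≫ tensorμ K N K L ≫ (μ[K] ⊗ₘ s.hom))
    (i : A ⟶ A') (j : A' ⟶ A) (hji : j ≫ i = 𝟙 A') (a' : A' ⟶ K ⊗ L) (b' : A' ⟶ K ⊗ M)
    (ea : a = i ≫ a') (eb : b = i ≫ b') :
    a' = b' ≫ K ◁ s.inv ≫ K ◁ (v ▷ L) ≫ (α_ K K L).inv ≫ μ[K] ▷ L := by
  have hb : (λ_ A).hom ≫ b = ((u ≫ w) ⊗ₘ a) ≫ tensorμ K N K L ≫ (μ[K] ⊗ₘ s.hom) := by
    rw [← hq, Category.assoc, Category.assoc, hc,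
      MonoidalCategory.tensorHom_comp_tensorHom_assoc, Category.id_comp]
  have key := height_aux s (u ≫ w) v hw a b hb
  rw [ea, eb, Category.assoc] at key
  have h := congrArg (fun k => j ≫ k) key
  rw [← Category.assoc, hji, Category.id_comp, ← Category.assoc, hji, Category.id_comp] at h
  exact h

end Vale.Agent.P251.St
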