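import Vale.Agent.P251.St.Chrom
import Vale.Agent.P251.St.ToFunctor
import Vale.Agent.P251.Z.CellsInst
import Vale.Agent.P251.St.Coh

/-!
# P251, statement layer: comparison of `St/Chrom.lean` with `Z/Statement.lean`

This file does not enter the final statement.
-/

open CategoryTheory MonoidalCategory OnePoint Topology Limits Pretriangulated Matrix MonObj

namespace Vale.Agent.P251.St

open G G.LC I

/-! ### the Thom spaces -/

section spaces

variable (n : ℕ) (A : Type) [Fintype A]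

theorem isProj_iff (P : Matrix A A ℂ) : St.IsProj n P ↔ G.IsProj n P :=
  ⟨fun h => ⟨h.1, h.2.1, h.2.2⟩, fun h => ⟨h.idem, h.herm, h.trace⟩⟩

/-- the two versions of the Thom space -/
def thHomeo : (St.Th n A).carrier ≃ₜ G.Th n A where
  toFun x := ⟨x.1, (isProj_iff n A _).mp x.2.1, x.2.2⟩
  invFun x := ⟨x.1, (isProj_iff n A _).mpr x.2.1, x.2.2⟩
  left_inv _ := rfl
  right_inv _ := rfl
  continuous_toFun := Continuous.subtype_mk continuous_subtype_val _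
  continuous_invFun := Continuous.subtype_mk continuous_subtype_val _

/-- the two versions of the projective space -/
def cpHomeo : (St.CP A).carrier ≃ₜ G.Gr 1 A where
  toFun x := ⟨x.1, (isProj_iff 1 A _).mp x.2⟩
  invFun x := ⟨x.1, (isProj_iff 1 A _).mpr x.2⟩
  left_inv _ := rfl
  right_inv _ := rfl
  continuous_toFun := Continuous.subtype_mk continuous_subtype_val _
  continuous_invFun := Continuous.subtype_mk continuous_subtype_val _

/-- the isomorphism of Thom spaces -/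
noncomputable def thIso : toLC (St.Th n A) ≅ LC.of (G.Th n A) :=
  ofHomeo (X := toLC (St.Th n A)) (Y := LC.of (G.Th n A)) (thHomeo n A)

/-- the isomorphism of projective spaces -/
noncomputable def cpIso : toLC (St.CP A) ≅ LC.of (G.Gr 1 A) :=
  ofHomeo (X := toLC (St.CP A)) (Y := LC.of (G.Gr 1 A)) (cpHomeo A)

theorem fc_th : St.FC (St.Th n A) :=
  fc_ofLC ((Z.Cells.th n A).of_iso (thIso n A).symm)

theorem fc_cp : St.FC (St.CP A) :=
  fc_ofLC ((Z.Cells.gr 1 A).of_iso (cpIso A).symm)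

theorem fc_Cn : St.FC (St.Cn n) := fc_ofLC (X := Z.Cn n) (Z.Cells.cn n)

end spaces

/-! ### functoriality -/

namespace Susp

variable {T : SHCat} (S : Susp T)

theorem mapL_comp {X Y Z : LC} (hX : LC.FC X) (hY : LC.FC Y) (hZ : LC.FC Z) (f : X ⟶ Y)
    (g : Y ⟶ Z) : S.mapL (f ≫ g) = S.mapL f ≫ S.mapL g :=
  S.map_comp (ofHom (X := ofLC X) (Y := ofLC Y) f) (ofHom (X := ofLC Y) (Y := ofLC Z) g) _
    (fc_ofLC hX) (fc_ofLC hY) (fc_ofLC hZ) rfl

theorem mapL_id {X : LC} (hX : LC.FC X) : S.mapL (𝟙 X) = 𝟙 (S.obj (ofLC X)) :=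
  S.map_id (ofHom (X := ofLC X) (Y := ofLC X) (𝟙 X)) (fc_ofLC hX) rfl

theorem mapL_inv_hom {X Y : LC} (hX : LC.FC X) (hY : LC.FC Y) (e : X ≅ Y) :
    S.mapL e.inv ≫ S.mapL e.hom = 𝟙 (S.obj (ofLC Y)) := by
  rw [← S.mapL_comp hY hX hY, e.inv_hom_id, S.mapL_id hY]

theorem mapL_hom_inv {X Y : LC} (hX : LC.FC X) (hY : LC.FC Y) (e : X ≅ Y) :
    S.mapL e.hom ≫ S.mapL e.inv = 𝟙 (S.obj (ofLC X)) := by
  rw [← S.mapL_comp hX hY hX, e.hom_inv_id, S.mapL_id hX]

end Susp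

/-! ### the predicates on maps -/

theorem isPair_conj {n : ℕ} {A : Type} [Fintype A] {X : Space} {X' : LC}
    (e : X.carrier ≃ₜ X'.carrier) {P : X'.carrier → Matrix A A ℂ} {v : X'.carrier → A → ℂ}
    {f : X' ⟶ LC.of (G.Th n A)} (h : Z.IsPair P v f) :
    St.IsPair (fun x : X.carrier => P (e x)) (fun x : X.carrier => v (e x))
      (ofHom (Y := St.Th n A) ((ofHomeo (X := toLC X) (Y := X') e).hom ≫ f ≫ (thIso n A).inv)) := by
  intro x
  obtain ⟨y, hy, hP, hv⟩ := h (e x)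
  refine ⟨(thHomeo n A).symm y, ?_, ?_⟩
  · change app (thIso n A).inv (app f ((e x : X') : OnePoint X')) = _
    rw [hy]
    rfl
  · exact Prod.ext hP hv

/-! ### orientations -/

section oriented

variable {T : SHCat} {S : Susp T} {R : RingSp T} (o : St.Oriented S R)

/-- the Thom classes -/
noncomputable def zθ (n : ℕ) (A : Type) [Fintype A] :
    S.toSpaceFunctor.S.obj (Z.thF n A) ⟶ R.obj ⊗ Z.SC S.toSpaceFunctor n :=
  S.mapL (thIso n A).inv ≫ o.θ n A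

theorem hom_zθ (n : ℕ) (A : Type) [Fintype A] : S.mapL (thIso n A).hom ≫ zθ o n A = o.θ n A := by
  have h := S.mapL_hom_inv ((fc_iff _).mp (fc_th n A)) (Z.Cells.th n A) (thIso n A)
  refine (Category.assoc _ _ _).symm.trans ?_
  rw [h]
  exact Category.id_comp _

theorem zθ_isom {n : ℕ} {A B : Type} [Fintype A] [Fintype B] [DecidableEq A] (u : Matrix B A ℂ)
    (hu : uᴴ * u = 1) (f : LC.of (G.Th n A) ⟶ LC.of (G.Th n B))
    (hf : Z.IsPair (X := LC.of (G.Th n A)) (fun x => u * x.P * uᴴ) (fun x => u *ᵥ x.v) f) :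
    S.mapL f ≫ zθ o n B = zθ o n A := by
  have hp : St.IsPair (X := St.Th n A) (fun x : ThSet n A => u * x.1.1 * uᴴ)
      (fun x : ThSet n A => u *ᵥ x.1.2)
      (ofHom (Y := St.Th n B) ((thIso n A).hom ≫ f ≫ (thIso n B).inv)) :=
    isPair_conj (X := St.Th n A) (X' := LC.of (G.Th n A)) (thHomeo n A)
      (P := fun x : G.Th n A => u * x.P * uᴴ) (v := fun x : G.Th n A => u *ᵥ x.v) hf
  have h := o.isom u _ hu hp
  have hA := Z.Cells.th n A
  have hB := Z.Cells.th n B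
  have hA' := (fc_iff _).mp (fc_th n A)
  have hB' := (fc_iff _).mp (fc_th n B)
  have h1 : S.mapL ((thIso n A).hom ≫ f ≫ (thIso n B).inv) ≫ o.θ n B = o.θ n A := h
  rw [S.mapL_comp hA' hA hB', S.mapL_comp hA hB hB', Category.assoc, Category.assoc] at h1
  have h2 : S.mapL (thIso n A).hom ≫ S.mapL f ≫ zθ o n B = o.θ n A := h1
  have h3 : S.mapL (thIso n A).inv ≫ S.mapL (thIso n A).hom ≫ S.mapL f ≫ zθ o n B =
      zθ o n A := by rw [h2]; rfl
  rw [← Category.assoc, S.mapL_inv_hom hA' hA, Category.id_comp] at h3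
  exact h3

theorem mapL_append {n m : ℕ} (g : Z.Cn n ⊗ Z.Cn m ≅ Z.Cn (n + m)) :
    (Z.SCadd S.toSpaceFunctor g).hom = S.mul (Cn n) (Cn m) ≫ S.mapL g.hom := rfl

theorem fc_tensor {X Y : LC} (hX : LC.FC X) (hY : LC.FC Y) : LC.FC (X ⊗ Y) :=
  FCP.prop_tensor hX hY

theorem mul_mapL {X Y X' Y' : LC} (hX : LC.FC X) (hY : LC.FC Y) (hX' : LC.FC X')
    (hY' : LC.FC Y') (f : X ⟶ X') (g : Y ⟶ Y') :
    S.mul (ofLC X) (ofLC Y) ≫ S.mapL (f ⊗ₘ g) =
      (S.mapL f ⊗ₘ S.mapL g) ≫ S.mul (ofLC X') (ofLC Y') :=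
  S.mul_natural (X := ofLC X) (Y := ofLC Y) (X' := ofLC X') (Y' := ofLC Y') _ _ _
    (fc_ofLC hX) (fc_ofLC hX') (fc_ofLC hY) (fc_ofLC hY')
    (fun x y => app_tensorHom_smash f g x y)

theorem zθ_sum {n m : ℕ} {A B : Type} [Fintype A] [Fintype B]
    (f : LC.of (G.Th n A) ⊗ LC.of (G.Th m B) ⟶ LC.of (G.Th (n + m) (A ⊕ B))) (hf : Z.IsSum f)
    (g : Z.Cn n ⊗ Z.Cn m ≅ Z.Cn (n + m)) (hg : Z.IsAppend g) :
    S.mul (ofLC (LC.of (G.Th n A))) (ofLC (LC.of (G.Th m B))) ≫ S.mapL f ≫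
        zθ o (n + m) (A ⊕ B) =
      (zθ o n A ⊗ₘ zθ o m B) ≫ tensorμ R.obj (S.obj (Cn n)) R.obj (S.obj (Cn m)) ≫
        (μ[R.obj] ⊗ₘ (S.mul (Cn n) (Cn m) ≫ S.mapL g.hom)) := by
  have hA := Z.Cells.th n A
  have hB := Z.Cells.th m B
  have hC := Z.Cells.th (n + m) (A ⊕ B)
  have hA' := (fc_iff _).mp (fc_th n A)
  have hB' := (fc_iff _).mp (fc_th m B)
  have hC' := (fc_iff _).mp (fc_th (n + m) (A ⊕ B))
  have hp : St.IsPair (X := (St.Th n A).prod (St.Th m B))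
      (fun x : ThSet n A × ThSet m B => fromBlocks x.1.1.1 0 0 x.2.1.1)
      (fun x : ThSet n A × ThSet m B => Sum.elim x.1.1.2 x.2.1.2)
      (ofHom (X := (St.Th n A).prod (St.Th m B)) (Y := St.Th (n + m) (A ⊕ B))
        ((ofHomeo (X := toLC ((St.Th n A).prod (St.Th m B)))
          (Y := LC.of (G.Th n A × G.Th m B)) ((thHomeo n A).prodCongr (thHomeo m B))).hom ≫
            f ≫ (thIso (n + m) (A ⊕ B)).inv)) :=
    isPair_conj (X := (St.Th n A).prod (St.Th m B)) (X' := LC.of (G.Th n A × G.Th m B))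
      ((thHomeo n A).prodCongr (thHomeo m B))
      (P := fun x : G.Th n A × G.Th m B => fromBlocks x.1.P 0 0 x.2.P)
      (v := fun x : G.Th n A × G.Th m B => Sum.elim x.1.v x.2.v) hf
  have h := o.sum _ hp (ofHom (X := (Cn n).prod (Cn m)) (Y := Cn (n + m)) g.hom)
    (fun a b => hg a b)
  have e1 : (ofHomeo (X := toLC ((St.Th n A).prod (St.Th m B)))
      (Y := LC.of (G.Th n A × G.Th m B)) ((thHomeo n A).prodCongr (thHomeo m B))).hom =
        ((thIso n A).hom ⊗ₘ (thIso m B).hom) := by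
    apply tensor_ext (X := toLC (St.Th n A)) (Y := toLC (St.Th m B))
      (Z := LC.of (G.Th n A) ⊗ LC.of (G.Th m B))
    intro x y
    rw [app_tensorHom_smash]
    rfl
  have h1 : S.mul (St.Th n A) (St.Th m B) ≫
      S.mapL (((thIso n A).hom ⊗ₘ (thIso m B).hom) ≫ f ≫ (thIso (n + m) (A ⊕ B)).inv) ≫
        o.θ (n + m) (A ⊕ B) = (o.θ n A ⊗ₘ o.θ m B) ≫
          tensorμ R.obj (S.obj (Cn n)) R.obj (S.obj (Cn m)) ≫
        (μ[R.obj] ⊗ₘ (S.mul (Cn n) (Cn m) ≫ S.mapL g.hom)) := by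
    rw [← e1]
    exact h
  rw [S.mapL_comp (fc_tensor hA' hB') (fc_tensor hA hB) hC',
    S.mapL_comp (fc_tensor hA hB) hC hC', Category.assoc, Category.assoc, ← Category.assoc,
    mul_mapL hA' hB' hA hB, Category.assoc] at h1
  have h2 : (S.mapL (thIso n A).inv ⊗ₘ S.mapL (thIso m B).inv) ≫
      (S.mapL (thIso n A).hom ⊗ₘ S.mapL (thIso m B).hom) = 𝟙 _ := by
    rw [MonoidalCategory.tensorHom_comp_tensorHom, S.mapL_inv_hom hA' hA,
      S.mapL_inv_hom hB' hB, MonoidalCategory.id_tensorHom_id]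
  have h3 := congrArg (fun k => (S.mapL (thIso n A).inv ⊗ₘ S.mapL (thIso m B).inv) ≫ k) h1
  rw [← Category.assoc, h2, Category.id_comp] at h3
  refine Eq.trans h3 ?_
  rw [MonoidalCategory.tensorHom_comp_tensorHom_assoc]
  rfl

theorem zθ_fibre (n : ℕ) (f : Z.Cn n ⟶ LC.of (G.Th n (Fin n)))
    (hf : Z.IsPair (X := Z.Cn n) (fun _ => 1) (fun x => x) f) :
    S.mapL f ≫ zθ o n (Fin n) = (λ_ (S.obj (Cn n))).inv ≫ η[R.obj] ▷ S.obj (Cn n) := by
  have hp : St.IsPair (X := Cn n) (fun _ => 1) (fun x => x)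
      (ofHom (X := Cn n) (Y := St.Th n (Fin n)) (f ≫ (thIso n (Fin n)).inv)) := by
    intro x
    obtain ⟨y, hy, hP, hv⟩ := hf x
    refine ⟨(thHomeo n (Fin n)).symm y, ?_, Prod.ext hP hv⟩
    change app (thIso n (Fin n)).inv (app f ((x : Z.Cn n) : OnePoint (Z.Cn n))) = _
    rw [hy]
    rfl
  have h := o.fibre n _ hp
  have h1 : (λ_ (S.obj (Cn n))).hom ≫ S.mapL (f ≫ (thIso n (Fin n)).inv) ≫ o.θ n (Fin n) =
      (η[R.obj] ⊗ₘ 𝟙 (S.obj (Cn n))) := h
  rw [S.mapL_comp (Z.Cells.cn n) (Z.Cells.th n (Fin n)) ((fc_iff _).mp (fc_th n (Fin n))),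
    Category.assoc, MonoidalCategory.tensorHom_id] at h1
  exact (Iso.eq_inv_comp _).mpr h1

/-- The orientation in the form used by the library. -/
noncomputable def zOriented : Z.Oriented S.toSpaceFunctor R.obj where
  θ n A := zθ o n A
  isom u hu f hf := zθ_isom o u hu f hf
  sum {n m A B} _ _ f hf g hg :=
    (Iso.eq_inv_comp (S.mulIso (Z.thF n A) (Z.thF m B))).mpr (zθ_sum o f hf g hg)
  fibre n f hf := zθ_fibre o n f hf

end oriented

/-! ### Morava K-theories -/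

section morava

variable {T : SHCat} (S : Susp T) (R : RingSp T)

theorem height_of {p N : ℕ} {o : St.Oriented S R} (h : HasPSeries S R p N o) :
    ∃ (v : Z.SC S.toSpaceFunctor N ⟶ R.obj) (w : 𝟙_ T.C ⟶ R.obj ⊗ Z.SC S.toSpaceFunctor N),
    w ≫ R.obj ◁ v ≫ μ[R.obj] = η[R.obj] ∧
      ∀ (g : Z.Cn N ⊗ Z.Cn 1 ≅ Z.Cn (N + 1)) (_ : Z.IsAppend g)
        (t : LC.of (Gr 1 (Fin (N + 2))) ⟶ LC.of (G.Th 1 (Fin p → Fin (N + 2))))
        (_ : Z.IsTensorPower p t)
        (e : LC.of (Gr 1 (Fin (N + 2))) ⟶ LC.of (G.Th (N + 1) (Fin (N + 1) × Fin (N + 2))))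
        (_ : Z.IsMultiple (N + 1) e),
        S.mapL t ≫ zθ o 1 _ = S.mapL e ≫ zθ o (N + 1) _ ≫ Z.mulBy S.toSpaceFunctor v g := by
  obtain ⟨v, w, hvw, h⟩ := h
  have hvw' : (S.unit ≫ w) ≫ R.obj ◁ v ≫ μ[R.obj] = η[R.obj] := by
    rw [Category.assoc, ← MonoidalCategory.id_tensorHom]
    exact hvw
  refine ⟨v, S.unit ≫ w, hvw', fun g hg t ht e he => ?_⟩
  have hG := Z.Cells.gr 1 (Fin (N + 2))
  have hG' := (fc_iff _).mp (fc_cp (Fin (N + 2)))
  have hE := Z.Cells.th (N + 1) (Fin (N + 1) × Fin (N + 2))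
  have hE' := (fc_iff _).mp (fc_th (N + 1) (Fin (N + 1) × Fin (N + 2)))
  have hT := Z.Cells.th 1 (Fin p → Fin (N + 2))
  have hT' := (fc_iff _).mp (fc_th 1 (Fin p → Fin (N + 2)))
  have he' : St.IsPair (X := CP (Fin (N + 2)))
      (fun (x : CPSet (Fin (N + 2))) i j => if i.1 = j.1 then x.1 i.2 j.2 else 0) (fun _ => 0)
      (ofHom (X := CP (Fin (N + 2))) (Y := St.Th (N + 1) (Fin (N + 1) × Fin (N + 2)))
        ((cpIso (Fin (N + 2))).hom ≫ e ≫ (thIso (N + 1) (Fin (N + 1) × Fin (N + 2))).inv)) :=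
    isPair_conj (X := CP (Fin (N + 2))) (X' := LC.of (Gr 1 (Fin (N + 2)))) (cpHomeo (Fin (N + 2)))
      (P := fun (x : Gr 1 (Fin (N + 2))) (i j : Fin (N + 1) × Fin (N + 2)) =>
        if i.1 = j.1 then x.P i.2 j.2 else 0) (v := fun _ => 0) he
  have ht' : St.IsPair (X := CP (Fin (N + 2)))
      (fun (x : CPSet (Fin (N + 2))) i j => ∏ k, x.1 (i k) (j k)) (fun _ => 0)
      (ofHom (X := CP (Fin (N + 2))) (Y := St.Th 1 (Fin p → Fin (N + 2)))
        ((cpIso (Fin (N + 2))).hom ≫ t ≫ (thIso 1 (Fin p → Fin (N + 2))).inv)) :=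
    isPair_conj (X := CP (Fin (N + 2))) (X' := LC.of (Gr 1 (Fin (N + 2)))) (cpHomeo (Fin (N + 2)))
      (P := fun (x : Gr 1 (Fin (N + 2))) (i j : Fin p → Fin (N + 2)) =>
        ∏ k, x.P (i k) (j k)) (v := fun _ => 0) ht
  have hc := h _ _ (ofHom (X := Pn.prod (CP (Fin (N + 2)))) (Y := CP (Fin (N + 2)))
    (λ_ (toLC (CP (Fin (N + 2))))).hom) he' ht' (fun x => rfl)
    (ofHom (X := (Cn N).prod (Cn 1)) (Y := Cn (N + 1)) g.hom) (fun a b => hg a b)
  have hu := S.mul_unit (X := CP (Fin (N + 2)))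
    (ofHom (X := Pn.prod (CP (Fin (N + 2)))) (Y := CP (Fin (N + 2)))
      (λ_ (toLC (CP (Fin (N + 2))))).hom) (fc_cp _)
    (fun x => app_leftUnitor_smash (toLC (CP (Fin (N + 2)))) x)
  have h4 : S.mapL (cpIso (Fin (N + 2))).inv ≫ S.mapL (cpIso (Fin (N + 2))).hom = 𝟙 _ :=
    S.mapL_inv_hom hG' hG _
  have ea : S.mapL ((cpIso (Fin (N + 2))).hom ≫ t ≫ (thIso 1 (Fin p → Fin (N + 2))).inv) ≫
      o.θ 1 _ = S.mapL (cpIso (Fin (N + 2))).hom ≫ S.mapL t ≫ zθ o 1 _ := by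
    rw [S.mapL_comp hG' hG hT', S.mapL_comp hG hT hT', Category.assoc, Category.assoc]
    rfl
  have eb : S.mapL ((cpIso (Fin (N + 2))).hom ≫ e ≫
      (thIso (N + 1) (Fin (N + 1) × Fin (N + 2))).inv) ≫ o.θ (N + 1) _ =
        S.mapL (cpIso (Fin (N + 2))).hom ≫ S.mapL e ≫ zθ o (N + 1) _ := by
    rw [S.mapL_comp hG' hG hE', S.mapL_comp hG hE hE', Category.assoc, Category.assoc]
    rfl
  exact Eq.trans (height_final (K := R.obj) (P := S.obj Pn) (Q := S.obj (Pn.prod (CP (Fin (N + 2)))))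
    (A := S.obj (CP (Fin (N + 2)))) (A' := S.obj (ofLC (LC.of (Gr 1 (Fin (N + 2))))))
    (N := S.obj (Cn N)) (L := S.obj (Cn 1)) (M := S.obj (Cn (N + 1)))
    S.unit (S.mul Pn (CP (Fin (N + 2)))) (S.mapL (λ_ (toLC (CP (Fin (N + 2))))).hom) hu
    (Z.SCadd S.toSpaceFunctor g) w v hvw' _ _ hc _ _ h4 _ _ ea eb) (Category.assoc _ _ _)

/-- Morava K-theories in the form used by the library. -/
theorem isMorava_of {p n : ℕ} (h : St.IsMorava S R p n) :
    Z.IsMorava S.toSpaceFunctor p n R.obj := by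
  cases n with
  | zero =>
    have h' : St.IsRational R := by simpa [St.IsMorava] using h
    exact ⟨fun k hk f => h'.conc k f hk, h'.ne, fun m hm => h'.div m hm, fun f => h'.gen f⟩
  | succ n =>
    have h' : IsPeriodicField R p (2 * ((p : ℤ) ^ (n + 1) - 1)) ∧
        ∃ o : St.Oriented S R, HasPSeries S R p (p ^ (n + 1) - 1) o := by
      simpa [St.IsMorava] using h
    obtain ⟨hf, o, ho⟩ := h'
    refine ⟨R.comm, zOriented o, fun k hk f => hf.sparse k f hk, hf.char, hf.ne,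
      fun f => hf.gen f, fun N hN => ?_⟩
    obtain rfl : N = p ^ (n + 1) - 1 := by omega
    exact height_of S R ho

end morava

/-! ### localizations -/

section loc

variable {T : SHCat}

theorem acyclic_iff (E W : T.C) : St.Acyclic E W ↔ P251.S.Acyclic E W :=
  (IsZero.iff_id_eq_zero _).symm

theorem isLoc_iff (E : T.C) {X Y : T.C} (f : X ⟶ Y) : St.IsLoc E f ↔ Z.IsLoc E f := by
  unfold St.IsLoc Z.IsLoc
  have h1 : IsIso (SHCat.tenHom (SHCat.ident E) f) ↔ IsIso (E ◁ f) := by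
    rw [← MonoidalCategory.id_tensorHom]
  rw [h1]
  refine and_congr_right fun _ => ?_
  constructor
  · intro h W hW g
    exact h W ((acyclic_iff E W).mpr hW) g
  · intro h W hW g
    exact h ((acyclic_iff E W).mp hW) g

theorem noRetraction_of (S : Susp T) {p n : ℕ} (h : Z.NoRetraction S.toSpaceFunctor p n) :
    St.NoRetraction S p n := by
  intro K E M a b Sp X Z' Y c l z y i hK hE hM hc hl hz hy hi
  refine h (fun j => (K j).obj) (fun j hj => isMorava_of S (K j) (hK j hj)) E ?_ M a b hM Sp X Z' Y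
    c ((isLoc_iff M c).mp hc) l ((isLoc_iff E l).mp hl) z ((isLoc_iff _ z).mp hz) y
    ((isLoc_iff E y).mp hy) i hi
  intro W
  rw [← acyclic_iff, hE W]
  refine forall_congr' fun j => forall_congr' fun _ => ?_
  exact acyclic_iff _ _

end loc

end Vale.Agent.P251.St
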