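import Vale.Agent.P251.St.Result

/-!
# P251, statement layer: a spectrum with the Bousfield class of `K(0) ∨ ⋯ ∨ K(n-1)`

`exists_classE`: for every family of ring spectra `K 0, K 1, …` there is a spectrum `E` with
`IsClassE n K E`, namely the sum of `K 0, …, K (n-1)`.
-/

open CategoryTheory MonoidalCategory Limits ZeroObject

namespace Vale.Agent.P251.St

open SHCat

variable {T : SHCat}

theorem acyclic_iff_isZero (E W : T.C) : St.Acyclic E W ↔ IsZero (E ⊗ W) :=
  (IsZero.iff_id_eq_zero _).symm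

theorem acyclic_biprod (E K W : T.C) :
    haveI : HasBinaryBiproducts T.C := HasBinaryBiproducts.of_hasBinaryCoproducts
    St.Acyclic (E ⊞ K) W ↔ St.Acyclic E W ∧ St.Acyclic K W := by
  haveI : HasBinaryBiproducts T.C := HasBinaryBiproducts.of_hasBinaryCoproducts
  have := preservesBinaryBiproducts_of_preservesBiproducts (tensorRight W)
  have e : (E ⊞ K) ⊗ W ≅ (E ⊗ W) ⊞ (K ⊗ W) := (tensorRight W).mapBiprod E K
  rw [acyclic_iff_isZero, acyclic_iff_isZero, acyclic_iff_isZero, e.isZero_iff]
  constructor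
  · intro h
    exact ⟨h.of_mono biprod.inl, h.of_mono biprod.inr⟩
  · rintro ⟨h1, h2⟩
    rw [IsZero.iff_id_eq_zero]
    apply biprod.hom_ext' <;> [exact h1.eq_of_src _ _; exact h2.eq_of_src _ _]

/-- There is a spectrum with the Bousfield class of `K 0 ∨ ⋯ ∨ K (n-1)`. -/
theorem exists_classE (n : ℕ) (K : ℕ → RingSp T) : ∃ E : T.C, IsClassE n K E := by
  have : HasBinaryBiproducts T.C := HasBinaryBiproducts.of_hasBinaryCoproducts
  induction n with
  | zero =>
    refine ⟨0, fun W => ⟨fun _ i hi => absurd hi (Nat.not_lt_zero i), fun _ => ?_⟩⟩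
    rw [acyclic_iff_isZero]
    exact (tensorRight W).map_isZero (isZero_zero T.C)
  | succ n ih =>
    obtain ⟨E, hE⟩ := ih
    refine ⟨E ⊞ (K n).obj, fun W => ?_⟩
    rw [acyclic_biprod, hE W]
    constructor
    · rintro ⟨h1, h2⟩ i hi
      rcases Nat.lt_succ_iff_lt_or_eq.mp hi with h | rfl
      · exact h1 i h
      · exact h2
    · intro h
      exact ⟨fun i hi => h i (by omega), h n (by omega)⟩

end Vale.Agent.P251.St
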