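import Vale.Agent.P251.St.Chrom

/-!
# P251, statement layer: the data which define the map `i_n`

`ChromMap S p n`: the data of the canonical map `i : L_{n-1} S_p ⟶ L_{n-1} L_{K(n)} S_p`.
-/

open CategoryTheory MonoidalCategory

namespace Vale.Agent.P251.St

open SHCat

/-- The data which define the canonical map `i_n : L_{n-1} S_p ⟶ L_{n-1} L_{K(n)} S_p`. -/
structure ChromMap {T : SHCat} (S : Susp T) (p n : ℕ) where
  /-- the Morava K-theories `K(0), …, K(n)` -/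
  K : ℕ → RingSp T
  isMorava : ∀ i ≤ n, IsMorava S (K i) p i
  /-- a spectrum with the Bousfield class of `K(0) ∨ ⋯ ∨ K(n-1)`, that is of `E(n-1)` -/
  E : T.C
  isClassE : IsClassE n K E
  /-- the Moore spectrum `S/p` -/
  M : T.C
  /-- the map `S ⟶ S/p` -/
  a : Hom T.one M
  /-- the map `S/p ⟶ Σ S` -/
  b : Hom M (sus T.one)
  dist : Dist (zmul p (ident T.one)) a b
  /-- the `p`-completed sphere `S_p` -/
  Sp : T.C
  /-- the map `S ⟶ S_p` -/
  c : Hom T.one Sp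
  isLoc_c : IsLoc M c
  /-- the spectrum `L_{n-1} S_p` -/
  X : T.C
  /-- the map `S_p ⟶ L_{n-1} S_p` -/
  l : Hom Sp X
  isLoc_l : IsLoc E l
  /-- the spectrum `L_{K(n)} S_p` -/
  Z : T.C
  /-- the map `S_p ⟶ L_{K(n)} S_p` -/
  z : Hom Sp Z
  isLoc_z : IsLoc (K n).obj z
  /-- the spectrum `L_{n-1} L_{K(n)} S_p` -/
  Y : T.C
  /-- the map `L_{K(n)} S_p ⟶ L_{n-1} L_{K(n)} S_p` -/
  y : Hom Z Y
  isLoc_y : IsLoc E y
  /-- the canonical map `i_n` -/
  i : Hom X Y
  fac : comp l i = comp z y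

end Vale.Agent.P251.St
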