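import Vale.Agent.P251.St.Data
import Vale.Agent.P251.St.Result2
import Vale.Agent.P251.S.Loc

/-!
# P251: the final statement in terms of the data of the map `i_n`

* `exists_ext`: the universal property of Bousfield localizations;
* `nonempty_chromMap`: the data of `i_n` exist;
* `statement3_of`: the final statement.
-/

open CategoryTheory MonoidalCategory Limits MonObj Pretriangulated

namespace Vale.Agent.P251.St

open SHCat

variable {T : SHCat}

theorem exists_ext {E X Y Z W : T.C} {l : Hom X Y} (hl : IsLoc E l) {y : Hom W Z}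
    (hy : IsLoc E y) (f : Hom X Z) : ∃ i : Hom Y Z, comp l i = f := by
  have h1 := (isLoc_iff E l).mp hl
  have h2 := (isLoc_iff E y).mp hy
  exact (S.IsLocal.precomp_bijective h2.2 l h1.1).2 f

/-- The data of the map `i_n` exist if the Morava K-theories do. -/
theorem nonempty_chromMap (S : Susp T) (p n : ℕ) (K : ℕ → RingSp T)
    (hK : ∀ i, IsMorava S (K i) p i) : Nonempty (ChromMap S p n) := by
  obtain ⟨E, hE⟩ := exists_classE n K
  obtain ⟨M, a, b, hab⟩ := distinguished_cocone_triangle (zmul (p : ℤ) (ident T.one))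
  obtain ⟨Sp, c, hc⟩ := exists_isLoc T M T.one
  obtain ⟨X, l, hl⟩ := exists_isLoc T E Sp
  obtain ⟨Z, z, hz⟩ := exists_isLoc T (K n).obj Sp
  obtain ⟨Y, y, hy⟩ := exists_isLoc T E Z
  obtain ⟨i, hi⟩ := exists_ext hl hy (comp z y)
  exact ⟨⟨K, fun j _ => hK j, E, hE, M, a, b, hab, Sp, c, hc, X, l, hl, Z, z, hz, Y, y, hy, i, hi⟩⟩

/-- `NoRetraction` in terms of the data of the map `i_n`. -/
theorem noRetraction_iff (S : Susp T) (p n : ℕ) :
    NoRetraction S p n ↔ ∀ D : ChromMap S p n, ¬ ∃ r : Hom D.Y D.X, comp D.i r = ident D.X :=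
  ⟨fun h D => h D.K D.E D.M D.a D.b D.Sp D.X D.Z D.Y D.c D.l D.z D.y D.i D.isMorava D.isClassE
    D.dist D.isLoc_c D.isLoc_l D.isLoc_z D.isLoc_y D.fac,
  fun h K E M a b Sp X Z Y c l z y i hK hE hab hc hl hz hy hi =>
    h ⟨K, hK, E, hE, M, a, b, hab, Sp, c, hc, X, l, hl, Z, z, hz, Y, y, hy, i, hi⟩⟩

/-- The final statement from its version in the language of the library. -/
theorem statement3_of
    (hN : ∀ (T : SHCat) (F : I.SpaceFunctor T.C), Z.NoRetraction F 5 5)
    (hK : ∀ (T : SHCat) (F : I.SpaceFunctor T.C) (n : ℕ),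
      ∃ (K : T.C) (_ : MonObj K) (_ : IsCommMonObj K), Z.IsMorava F 5 n K) :
    (∃ T : SHCat, Nonempty (Susp T)) ∧ ∀ (T : SHCat) (S : Susp T), Nonempty (ChromMap S 5 5) ∧
      ∀ D : ChromMap S 5 5, ¬ ∃ r : Hom D.Y D.X, comp D.i r = ident D.X := by
  refine ⟨nonempty_susp, fun T S => ⟨?_,
    (noRetraction_iff S 5 5).mp (noRetraction_of S (hN T S.toSpaceFunctor))⟩⟩
  obtain ⟨K, h⟩ := exists_morava 5 (by norm_num) T S (hK T S.toSpaceFunctor)
  exact nonempty_chromMap S 5 5 K h

end Vale.Agent.P251.St
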